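import Vale.Agent.P229.Test.Band

/-!
# P229 seat D: label, density and amplitude of the test function
-/

namespace Vale.Agent.P229.Test

open Set
open scoped ContDiff

/-- The characteristic label. -/
noncomputable def lab (P : Coef) (e : ℝ) : P2 → ℝ := label (vel P e)

/-- The amplitude: `l amp = - alphaP * amp`. -/
noncomputable def amp (P : Coef) (e : ℝ) (x : P2) : ℝ :=
  Real.exp (-lineInt (vel P e) (alphaP P e) x)

variable {P : Coef} {e : ℝ}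

lemma lOp_comp {φ : ℝ → ℝ} {F : P2 → ℝ} {x : P2} (hφ : DifferentiableAt ℝ φ (F x))
    (hF : DifferentiableAt ℝ F x) :
    lOp P e (fun y => φ (F y)) x = deriv φ (F x) * lOp P e F x := by
  rw [lOp, lOp, d1_comp hφ hF, d2_comp hφ hF]; ring

lemma lOp_mul {F G : P2 → ℝ} {x : P2} (hF : DifferentiableAt ℝ F x) (hG : DifferentiableAt ℝ G x) :
    lOp P e (fun y => F y * G y) x = lOp P e F x * G x + F x * lOp P e G x := by
  rw [lOp, lOp, lOp, d1_mul hF hG, d2_mul hF hG]; ring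

/-- Everything the pairing needs to know about the label and the amplitude. -/
structure AmpOK (P : Coef) (e C : ℝ) : Prop where
  velC2 : ContDiff ℝ 2 (vel P e)
  aPC1 : ContDiff ℝ 1 (alphaP P e)
  aMC1 : ContDiff ℝ 1 (alphaM P e)
  labC2 : ContDiff ℝ 2 (lab P e)
  ampC1 : ContDiff ℝ 1 (amp P e)
  aP_le : ∀ x, |alphaP P e x| ≤ C
  aM_le : ∀ x, |alphaM P e x| ≤ C
  laM_le : ∀ x, |lOp P e (alphaM P e) x| ≤ C
  lab_eqn : ∀ x, lOp P e (lab P e) x = 0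
  dens_eqn : ∀ x, d2 (d1 (lab P e)) x - vel P e x * d1 (d1 (lab P e)) x
    = d1 (vel P e) x * d1 (lab P e) x
  amp_eqn : ∀ x, lOp P e (amp P e) x = -(alphaP P e x * amp P e x)
  rho_mem : ∀ x : P2, |x.2| ≤ 1 → 9/10 ≤ d1 (lab P e) x ∧ d1 (lab P e) x ≤ 11/10
  amp_mem : ∀ x : P2, |x.2| ≤ 1 → C⁻¹ ≤ amp P e x ∧ amp P e x ≤ C
  amp_d : ∀ x : P2, |x.2| ≤ 1 → |d1 (amp P e) x| ≤ C ∧ |d2 (amp P e) x| ≤ C
  rho_d : ∀ x : P2, |x.2| ≤ 1 → |d1 (d1 (lab P e)) x| ≤ C ∧ |d2 (d1 (lab P e)) x| ≤ C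
  lab_d22 : ∀ x : P2, |x.2| ≤ 1 → |d2 (d2 (lab P e)) x| ≤ C

/-- Uniform `AmpOK`, given that the speed varies slowly. -/
theorem exists_ampOK (elo ehi K : ℝ) (helo : 0 < elo) : ∃ C : ℝ, 1 ≤ C ∧
    ∀ (e : ℝ) (P : Coef) (τ σ B L : ℝ), e ∈ Icc elo ehi → P.Good e τ K σ →
      Speed (vel P e) B L → L ≤ 1/20 → AmpOK P e C := by
  obtain ⟨C₀, hC₀, hb⟩ := exists_coef_bounds elo ehi K helo
  set E := Real.exp C₀
  set D := (3 * C₀ + C₀ * (3 * C₀) + 2 * C₀) + (3 * C₀) * (1 + C₀)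
  have hD : 0 ≤ D := by positivity
  refine ⟨E + 2 * C₀ + C₀ * C₀ + D + E * (3 * C₀ + C₀ * (3 * C₀) + C₀)
      + (2 * C₀ + C₀ * D) + 1, ?_, ?_⟩
  · have : 0 ≤ E := (Real.exp_pos _).le
    nlinarith [mul_nonneg hC₀ hC₀, mul_nonneg this hC₀, mul_nonneg hC₀ hD,
      mul_nonneg this (mul_nonneg hC₀ hC₀)]
  intro e P τ σ B L he hg hV hL
  obtain ⟨sP, sM, sv, hx⟩ := hb e P τ σ he hg
  set Cf := E + 2 * C₀ + C₀ * C₀ + D + E * (3 * C₀ + C₀ * (3 * C₀) + C₀) + (2 * C₀ + C₀ * D) + 1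
    with hCf
  have hE0 : 0 < E := Real.exp_pos _
  have hE1 : 1 ≤ E := Real.one_le_exp hC₀
  have t1 : 0 ≤ E * (3 * C₀ + C₀ * (3 * C₀) + C₀) := by positivity
  have t2 : 0 ≤ 2 * C₀ + C₀ * D := by positivity
  have t3 : 0 ≤ C₀ * C₀ := by positivity
  have bP : ∀ x, |alphaP P e x| ≤ C₀ := fun x => (hx x).1.1
  have bP1 : ∀ x, |d1 (alphaP P e) x| ≤ C₀ := fun x => (hx x).1.2.1
  have bv : ∀ x, |vel P e x| ≤ C₀ := fun x => (hx x).2.2.1.1
  have bv1 : ∀ x, |d1 (vel P e) x| ≤ C₀ := fun x => (hx x).2.2.1.2.1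
  have bv2 : ∀ x, |d2 (vel P e) x| ≤ C₀ := fun x => (hx x).2.2.1.2.2
  have bv11 : ∀ x, |d1 (d1 (vel P e)) x| ≤ C₀ := fun x => (hx x).2.2.2.1.1
  have hexp : ∀ x : P2, |x.2| ≤ 1 → Real.exp (L * |x.2|) ≤ 11/10 ∧
      9/10 ≤ Real.exp (-(L * |x.2|)) ∧ Real.exp (2 * (L * |x.2|)) ≤ 2 := by
    intro x hy
    set u := L * |x.2|
    have hu : u ≤ 1/20 := by nlinarith [hV.L_nonneg, abs_nonneg x.2]
    have hu0 : 0 ≤ u := mul_nonneg hV.L_nonneg (abs_nonneg _)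
    have h1 : 1 - u ≤ Real.exp (-u) := by linarith [Real.add_one_le_exp (-u)]
    have h2 : Real.exp u ≤ 11/10 := by
      have h3 := mul_le_mul_of_nonneg_left h1 (Real.exp_pos u).le
      rw [← Real.exp_add, add_neg_cancel, Real.exp_zero] at h3
      nlinarith [Real.exp_pos u]
    refine ⟨h2, by linarith, ?_⟩
    rw [two_mul, Real.exp_add]
    nlinarith [Real.exp_pos u]
  have labC2 : ContDiff ℝ 2 (lab P e) := by exact_mod_cast hV.contDiff_label (n := 2) sv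
  have hJ : ContDiff ℝ 1 (lineInt (vel P e) (alphaP P e)) := by
    exact_mod_cast hV.contDiff_lineInt (n := 1) (by exact_mod_cast hV.smooth) (by exact_mod_cast sP)
  have rho : ∀ x : P2, |x.2| ≤ 1 → 9/10 ≤ d1 (lab P e) x ∧ d1 (lab P e) x ≤ 11/10 := fun x hy =>
    ⟨(hexp x hy).2.1.trans (hV.d1_label_bounds x).1, (hV.d1_label_bounds x).2.trans (hexp x hy).1⟩
  have hd11 : ∀ x : P2, |x.2| ≤ 1 → |d1 (d1 (lab P e)) x| ≤ 3 * C₀ := by
    intro x hy
    refine (hV.abs_d11_label sv bv11 x).trans ?_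
    calc C₀ * |x.2| * Real.exp (2 * (L * |x.2|)) ≤ C₀ * 1 * 2 := by
          gcongr; exact (hexp x hy).2.2
      _ ≤ 3 * C₀ := by linarith
  have hd21 : ∀ x : P2, |x.2| ≤ 1 →
      |d2 (d1 (lab P e)) x| ≤ C₀ * (3 * C₀) + 2 * C₀ := by
    intro x hy
    rw [show d2 (d1 (lab P e)) x = vel P e x * d1 (d1 (label (vel P e))) x
      + d1 (vel P e) x * d1 (label (vel P e)) x from hV.d2_d1_label sv x]
    refine (abs_add_le _ _).trans (add_le_add ?_ ?_) <;> rw [abs_mul]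
    · exact mul_le_mul (bv x) (hd11 x hy) (abs_nonneg _) hC₀
    · rw [mul_comm 2 C₀]
      refine mul_le_mul (bv1 x) ?_ (abs_nonneg _) hC₀
      rw [abs_of_pos (hV.d1_label_pos x)]
      exact (rho x hy).2.trans (by norm_num)
  have hJb : ∀ x : P2, |x.2| ≤ 1 → |lineInt (vel P e) (alphaP P e) x| ≤ C₀ := fun x hy =>
    (abs_lineInt_le _ _ x fun t _ => bP _).trans (mul_le_of_le_one_right hC₀ hy)
  have hJ1 : ∀ x : P2, |x.2| ≤ 1 → |d1 (lineInt (vel P e) (alphaP P e)) x| ≤ 3 * C₀ := by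
    intro x hy
    refine (hV.abs_d1_lineInt_le hV.smooth sP x fun t _ => bP1 _).trans ?_
    calc C₀ * |x.2| * Real.exp (L * |x.2|) ≤ C₀ * 1 * 2 := by
          gcongr; linarith [(hexp x hy).1]
      _ ≤ 3 * C₀ := by linarith
  have hamp : ∀ x : P2, |x.2| ≤ 1 → amp P e x ≤ E := fun x hy =>
    Real.exp_le_exp.2 (by linarith [(abs_le.1 (hJb x hy)).1])
  have hdamp : ∀ x : P2, |x.2| ≤ 1 → |d1 (amp P e) x| ≤ E * (3 * C₀) ∧
      |d2 (amp P e) x| ≤ E * (C₀ * (3 * C₀) + C₀) := by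
    intro x hy
    have e0 := ((hJ.differentiable one_ne_zero) x).hasFDerivAt.fun_neg.exp.fderiv
    have eq2 : d2 (lineInt (vel P e) (alphaP P e)) x
        = vel P e x * d1 (lineInt (vel P e) (alphaP P e)) x + alphaP P e x :=
      hV.lineInt_eq_source' sP x
    have d2b : |d2 (lineInt (vel P e) (alphaP P e)) x| ≤ C₀ * (3 * C₀) + C₀ := by
      rw [eq2]
      refine (abs_add_le _ _).trans (add_le_add ?_ (bP x))
      rw [abs_mul]
      exact mul_le_mul (bv x) (hJ1 x hy) (abs_nonneg _) hC₀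
    unfold amp d1 d2 at *
    rw [e0]
    simp only [smul_apply, neg_apply, smul_eq_mul, abs_mul, abs_neg, abs_of_pos (Real.exp_pos _)]
    exact ⟨mul_le_mul (hamp x hy) (hJ1 x hy) (abs_nonneg _) hE0.le,
      mul_le_mul (hamp x hy) d2b (abs_nonneg _) hE0.le⟩
  refine ⟨sv, sP, sM, labC2, hJ.neg.exp, fun x => ?_, fun x => ?_, fun x => ?_, fun x => ?_,
    fun x => hV.d2_d1_label sv x ▸ ?_, fun x => hV.amplitude_eq sP x, rho, fun x hy => ⟨?_, ?_⟩,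
    fun x hy => ⟨?_, ?_⟩, fun x hy => ⟨?_, ?_⟩, fun x hy => ?_⟩
  · linarith [bP x]
  · linarith [(hx x).2.1.1]
  · refine (abs_sub _ _).trans ?_
    rw [abs_mul]
    have := mul_le_mul (bv x) (hx x).2.1.2.1 (abs_nonneg _) hC₀
    linarith [(hx x).2.1.2.2]
  · rw [lOp, sub_eq_zero]; exact hV.d2_label x
  · simp only [lab]; ring
  · have h1 : E⁻¹ ≤ amp P e x := by
      rw [← Real.exp_neg]
      exact Real.exp_le_exp.2 (by linarith [(abs_le.1 (hJb x hy)).2])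
    exact le_trans (inv_anti₀ hE0 (by linarith)) h1
  · linarith [hamp x hy]
  · have := (hdamp x hy).1
    have h2 : E * (3 * C₀) ≤ E * (3 * C₀ + C₀ * (3 * C₀) + C₀) := by
      gcongr; nlinarith
    linarith
  · have := (hdamp x hy).2
    have h2 : E * (C₀ * (3 * C₀) + C₀) ≤ E * (3 * C₀ + C₀ * (3 * C₀) + C₀) := by
      gcongr; linarith
    linarith
  · have := hd11 x hy
    nlinarith
  · have := hd21 x hy
    nlinarith
  · rw [show d2 (d2 (lab P e)) x = d2 (vel P e) x * d1 (label (vel P e)) x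
      + vel P e x * d2 (d1 (label (vel P e))) x from hV.d22_label sv x]
    refine (abs_add_le _ _).trans ?_
    rw [abs_mul, abs_mul, abs_of_pos (hV.d1_label_pos x)]
    have h1 := mul_le_mul (bv2 x) ((rho x hy).2.trans (by norm_num : (11/10:ℝ) ≤ 2))
      (hV.d1_label_pos x).le hC₀
    have h2 := mul_le_mul (bv x) (hd21 x hy) (abs_nonneg _) hC₀
    have h3 : C₀ * (C₀ * (3 * C₀) + 2 * C₀) ≤ C₀ * D := by
      gcongr; nlinarith
    simp only [lab] at *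
    linarith

end Vale.Agent.P229.Test
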