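import Vale.Agent.P229.Calc

/-!
# P229 seat D: families of functions with uniform first-order bounds
-/

namespace Vale.Agent.P229.Test

variable {ι : Type} {f g : ι → P2 → ℝ}

/-- Each member is `C¹`, with value and first partials bounded uniformly on the whole plane. -/
def UB1 (f : ι → P2 → ℝ) : Prop :=
  (∀ i, ContDiff ℝ 1 (f i)) ∧
    ∃ C : ℝ, 0 ≤ C ∧ ∀ i x, |f i x| ≤ C ∧ |d1 (f i) x| ≤ C ∧ |d2 (f i) x| ≤ C

lemma UB1.mk' (hf : ∀ i, ContDiff ℝ 1 (f i))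
    (C : ℝ) (h : ∀ i x, |f i x| ≤ C ∧ |d1 (f i) x| ≤ C ∧ |d2 (f i) x| ≤ C) : UB1 f :=
  ⟨hf, max C 0, le_max_right _ _, fun i x =>
    ⟨(h i x).1.trans (le_max_left _ _), (h i x).2.1.trans (le_max_left _ _),
      (h i x).2.2.trans (le_max_left _ _)⟩⟩

lemma UB1.congr (hf : UB1 f) (h : ∀ i x, g i x = f i x) : UB1 g := by
  obtain rfl : g = f := funext fun i => funext (h i)
  exact hf

lemma UB1.const {c : ι → ℝ} {C : ℝ} (h : ∀ i, |c i| ≤ C) : UB1 fun i (_ : P2) => c i :=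
  UB1.mk' (fun _ => contDiff_const) C fun i x => by
    simp [d1_const, d2_const, h i, (abs_nonneg _).trans (h i)]

lemma UB1.add (hf : UB1 f) (hg : UB1 g) : UB1 fun i x => f i x + g i x := by
  obtain ⟨sf, C, hC, bf⟩ := hf
  obtain ⟨sg, D, hD, bg⟩ := hg
  refine ⟨fun i => (sf i).add (sg i), C + D, add_nonneg hC hD, fun i x => ?_⟩
  have a := (sf i).differentiable one_ne_zero x
  have b := (sg i).differentiable one_ne_zero x
  rw [d1_add a b, d2_add a b]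
  obtain ⟨p, q, r⟩ := bf i x
  obtain ⟨p', q', r'⟩ := bg i x
  exact ⟨(abs_add_le _ _).trans (add_le_add p p'), (abs_add_le _ _).trans (add_le_add q q'),
    (abs_add_le _ _).trans (add_le_add r r')⟩

lemma UB1.neg (hf : UB1 f) : UB1 fun i x => -f i x := by
  obtain ⟨sf, C, hC, bf⟩ := hf
  refine ⟨fun i => (sf i).neg, C, hC, fun i x => ?_⟩
  simpa [d1_neg, d2_neg] using bf i x

lemma UB1.sub (hf : UB1 f) (hg : UB1 g) : UB1 fun i x => f i x - g i x :=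
  (hf.add hg.neg).congr fun _ _ => sub_eq_add_neg _ _

lemma UB1.mul (hf : UB1 f) (hg : UB1 g) : UB1 fun i x => f i x * g i x := by
  obtain ⟨sf, C, hC, bf⟩ := hf
  obtain ⟨sg, D, hD, bg⟩ := hg
  refine ⟨fun i => (sf i).mul (sg i), 2 * (C * D), by positivity, fun i x => ?_⟩
  have a := (sf i).differentiable one_ne_zero x
  have b := (sg i).differentiable one_ne_zero x
  rw [d1_mul a b, d2_mul a b]
  obtain ⟨p, q, r⟩ := bf i x
  obtain ⟨p', q', r'⟩ := bg i x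
  have m : ∀ {u v : ℝ}, |u| ≤ C → |v| ≤ D → |u * v| ≤ C * D := fun hu hv => by
    rw [abs_mul]; exact mul_le_mul hu hv (abs_nonneg _) hC
  refine ⟨(m p p').trans (by nlinarith [mul_nonneg hC hD]), ?_, ?_⟩
  · exact (abs_add_le _ _).trans ((add_le_add (m q p') (m p q')).trans_eq (two_mul _).symm)
  · exact (abs_add_le _ _).trans ((add_le_add (m r p') (m p r')).trans_eq (two_mul _).symm)

lemma UB1.comp {φ : ℝ → ℝ} (hφ : ContDiff ℝ 1 φ) {B : ℝ} (h0 : ∀ t, |φ t| ≤ B)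
    (h1 : ∀ t, |deriv φ t| ≤ B) (hf : UB1 f) : UB1 fun i x => φ (f i x) := by
  obtain ⟨sf, C, hC, bf⟩ := hf
  refine UB1.mk' (fun i => hφ.comp (sf i)) (max B (B * C)) fun i x => ?_
  have a := (sf i).differentiable one_ne_zero x
  have b := hφ.differentiable one_ne_zero (f i x)
  rw [d1_comp b a, d2_comp b a, abs_mul, abs_mul]
  have hB : 0 ≤ B := (abs_nonneg _).trans (h0 0)
  exact ⟨(h0 _).trans (le_max_left _ _),
    (mul_le_mul (h1 _) (bf i x).2.1 (abs_nonneg _) hB).trans (le_max_right _ _),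
    (mul_le_mul (h1 _) (bf i x).2.2 (abs_nonneg _) hB).trans (le_max_right _ _)⟩

lemma UB1.inv (hf : UB1 f) {m : ℝ} (hm : 0 < m) (h : ∀ i x, m ≤ f i x) :
    UB1 fun i x => (f i x)⁻¹ := by
  obtain ⟨sf, C, hC, bf⟩ := hf
  refine UB1.mk' (fun i => (sf i).inv fun x => (hm.trans_le (h i x)).ne')
    (max m⁻¹ ((m ^ 2)⁻¹ * C)) fun i x => ?_
  have hp := hm.trans_le (h i x)
  have a := (sf i).differentiable one_ne_zero x
  have e : ∀ u : ℝ, |-(f i x ^ 2)⁻¹ * u| = (f i x ^ 2)⁻¹ * |u| := fun u => by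
    rw [abs_mul, abs_neg, abs_of_pos (by positivity)]
  rw [d1_comp (φ := fun t => t⁻¹) (differentiableAt_inv hp.ne') a,
    d2_comp (φ := fun t => t⁻¹) (differentiableAt_inv hp.ne') a, deriv_inv, e, e,
    abs_of_pos (inv_pos.2 hp)]
  have i2 : (f i x ^ 2)⁻¹ ≤ (m ^ 2)⁻¹ :=
    inv_anti₀ (pow_pos hm 2) (pow_le_pow_left₀ hm.le (h i x) 2)
  have hi : (0:ℝ) ≤ (m ^ 2)⁻¹ := by positivity
  exact ⟨(inv_anti₀ hm (h i x)).trans (le_max_left _ _),
    (mul_le_mul i2 (bf i x).2.1 (abs_nonneg _) hi).trans (le_max_right _ _),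
    (mul_le_mul i2 (bf i x).2.2 (abs_nonneg _) hi).trans (le_max_right _ _)⟩

lemma norm_e1 : ‖((1, 0) : P2)‖ = 1 := by simp [Prod.norm_def]

lemma norm_e2 : ‖((0, 1) : P2)‖ = 1 := by simp [Prod.norm_def]

lemma abs_fderiv_le (F : P2 → ℝ) (x : P2) {u : P2} (hu : ‖u‖ = 1) :
    |fderiv ℝ F x u| ≤ ‖iteratedFDeriv ℝ 1 F x‖ := by
  rw [norm_iteratedFDeriv_one]
  simpa [hu] using (fderiv ℝ F x).le_opNorm u

lemma abs_fderiv_fderiv_le {F : P2 → ℝ} (hF : ContDiff ℝ 2 F) (x : P2) {u v : P2}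
    (hu : ‖u‖ = 1) (hv : ‖v‖ = 1) :
    |fderiv ℝ (fun y => fderiv ℝ F y u) x v| ≤ ‖iteratedFDeriv ℝ 2 F x‖ := by
  have hd : DifferentiableAt ℝ (fderiv ℝ F) x :=
    ((hF.fderiv_right (m := 1) (by norm_num)).differentiable one_ne_zero) x
  rw [fderiv_clm_apply hd (differentiableAt_const _)]
  rw [show ‖iteratedFDeriv ℝ 2 F x‖ = ‖fderiv ℝ (fderiv ℝ F) x‖ by
    rw [← norm_iteratedFDeriv_one, norm_iteratedFDeriv_fderiv]]
  have h1 := (fderiv ℝ (fderiv ℝ F) x v).le_opNorm u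
  have h2 := (fderiv ℝ (fderiv ℝ F) x).le_opNorm v
  rw [hu, mul_one] at h1
  rw [hv, mul_one] at h2
  simpa using h1.trans h2

/-- A uniformly `C²` family, with its partials. -/
lemma ub1_of_iterated {K : ℝ} (hf : ∀ i, ContDiff ℝ 2 (f i))
    (h : ∀ i x, ∀ k : ℕ, k ≤ 2 → ‖iteratedFDeriv ℝ k (f i) x‖ ≤ K) :
    UB1 f ∧ UB1 (fun i => d1 (f i)) ∧ UB1 (fun i => d2 (f i)) := by
  have h0 : ∀ i x, |f i x| ≤ K := fun i x => by simpa using h i x 0 (by norm_num)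
  have h1 : ∀ i x (u : P2), ‖u‖ = 1 → |fderiv ℝ (f i) x u| ≤ K := fun i x u hu =>
    (abs_fderiv_le _ x hu).trans (h i x 1 (by norm_num))
  have h2 : ∀ i x (u v : P2), ‖u‖ = 1 → ‖v‖ = 1 →
      |fderiv ℝ (fun y => fderiv ℝ (f i) y u) x v| ≤ K := fun i x u v hu hv =>
    (abs_fderiv_fderiv_le (hf i) x hu hv).trans (h i x 2 le_rfl)
  exact ⟨UB1.mk' (fun i => (hf i).of_le (by norm_num)) K fun i x =>
      ⟨h0 i x, h1 i x _ norm_e1, h1 i x _ norm_e2⟩,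
    UB1.mk' (fun i => contDiff_d1 (n := 1) (hf i)) K fun i x =>
      ⟨h1 i x _ norm_e1, h2 i x _ _ norm_e1 norm_e1, h2 i x _ _ norm_e1 norm_e2⟩,
    UB1.mk' (fun i => contDiff_d2 (n := 1) (hf i)) K fun i x =>
      ⟨h1 i x _ norm_e2, h2 i x _ _ norm_e2 norm_e1, h2 i x _ _ norm_e2 norm_e2⟩⟩

end Vale.Agent.P229.Test
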