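import Vale.Agent.P229.Calc

/-!
# P229 seat D: the forcing bump
-/

namespace Vale.Agent.P229.Test

open MeasureTheory
open scoped ContDiff

/-- `Λ (x - p)`. -/
def zoom (Λ : ℝ) (p x : P2) : P2 := (Λ * (x.1 - p.1), Λ * (x.2 - p.2))

lemma contDiff_bump {n : ℕ∞} : ContDiff ℝ n bump := by
  unfold bump rsq
  exact Real.smoothTransition.contDiff.comp
    (contDiff_const.sub ((contDiff_fst.pow 2).add (contDiff_snd.pow 2)))

lemma isCompact_dsk (r : ℝ) : IsCompact (Dsk r) := by
  have hc : Continuous rsq := (continuous_fst.pow 2).add (continuous_snd.pow 2)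
  refine (isCompact_Icc (a := ((-(|r| + 1), -(|r| + 1)) : P2)) (b := (|r| + 1, |r| + 1))
    ).of_isClosed_subset (isClosed_le hc continuous_const) ?_
  intro x hx
  have h : x.1 ^ 2 + x.2 ^ 2 ≤ r := hx
  have h0 : r ≤ |r| := le_abs_self r
  have h1 : |x.1| ≤ |r| + 1 := by nlinarith [sq_abs x.1, abs_nonneg x.1, sq_nonneg x.2]
  have h2 : |x.2| ≤ |r| + 1 := by nlinarith [sq_abs x.2, abs_nonneg x.2, sq_nonneg x.1]
  rw [abs_le] at h1 h2
  exact ⟨⟨h1.1, h2.1⟩, ⟨h1.2, h2.2⟩⟩

lemma bump_eq_zero {z : P2} (h : 1 ≤ rsq z) : bump z = 0 :=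
  Real.smoothTransition.zero_of_nonpos (by linarith)

lemma hasCompactSupport_bump : HasCompactSupport bump :=
  HasCompactSupport.intro (isCompact_dsk 1) fun _ hz => bump_eq_zero (le_of_not_ge hz)

lemma integral_bump_pos : 0 < ∫ z, bump z := by
  refine (contDiff_bump (n := 0)).continuous.integral_pos_of_hasCompactSupport_nonneg_nonzero
    (x := (0 : P2)) hasCompactSupport_bump (fun z => Real.smoothTransition.nonneg _) ?_
  simp [bump, rsq]

lemma lap_bump_eq_zero {z : P2} (h : 1 < rsq z) : lap bump z = 0 := by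
  have hc : Continuous rsq := (continuous_fst.pow 2).add (continuous_snd.pow 2)
  have ho : ∀ᶠ u in nhds z, 1 < rsq u := (isOpen_lt continuous_const hc).mem_nhds h
  have h0 : bump =ᶠ[nhds z] fun _ => 0 := ho.mono fun u hu => bump_eq_zero hu.le
  have h1 : d1 bump =ᶠ[nhds z] fun _ => 0 := by
    filter_upwards [h0.fderiv (𝕜 := ℝ)] with u hu
    simp [d1, hu]
  have h2 : d2 bump =ᶠ[nhds z] fun _ => 0 := by
    filter_upwards [h0.fderiv (𝕜 := ℝ)] with u hu
    simp [d2, hu]
  show d1 (d1 bump) z + d2 (d2 bump) z = 0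
  rw [d1, d2, h1.fderiv_eq, h2.fderiv_eq]
  simp

lemma continuous_lap {f : P2 → ℝ} (hf : ContDiff ℝ 2 f) : Continuous (lap f) :=
  (contDiff_d1 (n := 0) (contDiff_d1 (n := 1) hf)).continuous.add
    (contDiff_d2 (n := 0) (contDiff_d2 (n := 1) hf)).continuous

lemma hasCompactSupport_lap_bump : HasCompactSupport (lap bump) :=
  HasCompactSupport.intro (isCompact_dsk 1) fun _ hz => lap_bump_eq_zero (lt_of_not_ge hz)

/-- Two integrations by parts against a quadratic form. -/
lemma integral_lap_bump_quad (l1 l2 : ℝ) :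
    ∫ z, lap bump z * ((l1 * z.1 + l2 * z.2) ^ 2 / 2) = (l1 ^ 2 + l2 ^ 2) * ∫ z, bump z := by
  let L : P2 → ℝ := fun z => l1 * z.1 + l2 * z.2
  have hL : ContDiff ℝ 2 L := (contDiff_const.mul contDiff_fst).add (contDiff_const.mul contDiff_snd)
  have hb1 : ContDiff ℝ 1 (d1 bump) := contDiff_d1 (n := 1) contDiff_bump
  have hb2 : ContDiff ℝ 1 (d2 bump) := contDiff_d2 (n := 1) contDiff_bump
  let F1 : P2 → ℝ := fun z => d1 bump z * (L z * L z / 2) - bump z * (l1 * L z)
  let F2 : P2 → ℝ := fun z => d2 bump z * (L z * L z / 2) - bump z * (l2 * L z)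
  have hb : ContDiff ℝ 1 bump := contDiff_bump
  have hL1 : ContDiff ℝ 1 L := hL.of_le (by norm_num)
  have hF1 : ContDiff ℝ 1 F1 :=
    (hb1.mul ((hL1.mul hL1).div_const 2)).sub (hb.mul (contDiff_const.mul hL1))
  have hF2 : ContDiff ℝ 1 F2 :=
    (hb2.mul ((hL1.mul hL1).div_const 2)).sub (hb.mul (contDiff_const.mul hL1))
  have hs1 : HasCompactSupport F1 :=
    (((hasCompactSupport_bump.fderiv_apply ℝ ((1, 0) : P2)).mul_right)).sub
      hasCompactSupport_bump.mul_right
  have hs2 : HasCompactSupport F2 :=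
    (((hasCompactSupport_bump.fderiv_apply ℝ ((0, 1) : P2)).mul_right)).sub
      hasCompactSupport_bump.mul_right
  have key : ∀ z, lap bump z * ((l1 * z.1 + l2 * z.2) ^ 2 / 2)
      = d1 F1 z + d2 F2 z + (l1 ^ 2 + l2 ^ 2) * bump z := by
    intro z
    have a1 := (hb1.differentiable one_ne_zero) z
    have a2 := (hb2.differentiable one_ne_zero) z
    have a0 := (hb.differentiable one_ne_zero) z
    have aL := (hL1.differentiable one_ne_zero) z
    have e1 : d1 L z = l1 := by
      simp only [L]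
      rw [d1_add (by fun_prop) (by fun_prop), d1_const_mul _ (by fun_prop),
        d1_const_mul _ (by fun_prop), d1_fst, d1_snd]
      ring
    have e2 : d2 L z = l2 := by
      simp only [L]
      rw [d2_add (by fun_prop) (by fun_prop), d2_const_mul _ (by fun_prop),
        d2_const_mul _ (by fun_prop), d2_fst, d2_snd]
      ring
    have hd : DifferentiableAt ℝ (fun z => L z * L z / 2) z := by fun_prop
    have q1 : d1 (fun z => L z * L z / 2) z = L z * l1 := by
      have : (fun z => L z * L z / 2) = fun z => (1/2 : ℝ) * (L z * L z) := by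
        funext u; ring
      rw [this, d1_const_mul _ (aL.fun_mul aL), d1_mul aL aL, e1]; ring
    have q2 : d2 (fun z => L z * L z / 2) z = L z * l2 := by
      have : (fun z => L z * L z / 2) = fun z => (1/2 : ℝ) * (L z * L z) := by
        funext u; ring
      rw [this, d2_const_mul _ (aL.fun_mul aL), d2_mul aL aL, e2]; ring
    simp only [F1, F2]
    rw [d1_sub (a1.fun_mul hd) (a0.fun_mul (aL.const_mul l1)), d1_mul a1 hd, q1,
      d1_mul a0 (aL.const_mul l1), d1_const_mul _ aL, e1,
      d2_sub (a2.fun_mul hd) (a0.fun_mul (aL.const_mul l2)), d2_mul a2 hd, q2,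
      d2_mul a0 (aL.const_mul l2), d2_const_mul _ aL, e2]
    simp only [lap, L]
    ring
  have i1 : Integrable (d1 F1) :=
    (contDiff_d1 (n := 0) hF1).continuous.integrable_of_hasCompactSupport (hs1.fderiv_apply ℝ _)
  have i2 : Integrable (d2 F2) :=
    (contDiff_d2 (n := 0) hF2).continuous.integrable_of_hasCompactSupport (hs2.fderiv_apply ℝ _)
  have i3 : Integrable fun z => (l1 ^ 2 + l2 ^ 2) * bump z :=
    (hb.continuous.integrable_of_hasCompactSupport hasCompactSupport_bump).const_mul _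
  rw [integral_congr_ae (Filter.Eventually.of_forall key)]
  have i12 : Integrable fun z => d1 F1 z + d2 F2 z := i1.add i2
  rw [integral_add i12 i3, integral_add i1 i2, integral_d1_eq_zero hF1 hs1,
    integral_d2_eq_zero hF2 hs2, integral_const_mul]
  ring

/-- Lower bound for the pairing with something close to a square. -/
lemma le_integral_lap_bump {m l1 l2 ε : ℝ} {Ψ : P2 → ℝ} (hΨ : Continuous Ψ)
    (h : ∀ z, rsq z ≤ 1 → |Ψ z - m * ((l1 * z.1 + l2 * z.2) ^ 2 / 2)| ≤ ε) :
    m * (l1 ^ 2 + l2 ^ 2) * (∫ z, bump z) - ε * (∫ z, |lap bump z|)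
      ≤ ∫ z, lap bump z * Ψ z := by
  have hc : Continuous (lap bump) := continuous_lap contDiff_bump
  have hq : Continuous fun z : P2 => m * ((l1 * z.1 + l2 * z.2) ^ 2 / 2) := by fun_prop
  have i0 : Integrable fun z => lap bump z * (m * ((l1 * z.1 + l2 * z.2) ^ 2 / 2)) :=
    (hc.mul hq).integrable_of_hasCompactSupport hasCompactSupport_lap_bump.mul_right
  have i1 : Integrable fun z => lap bump z * Ψ z :=
    (hc.mul hΨ).integrable_of_hasCompactSupport hasCompactSupport_lap_bump.mul_right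
  have i2 : Integrable fun z => ε * |lap bump z| :=
    ((hc.abs).integrable_of_hasCompactSupport (hasCompactSupport_lap_bump.abs)).const_mul ε
  have hle : ∀ z, lap bump z * (m * ((l1 * z.1 + l2 * z.2) ^ 2 / 2)) - ε * |lap bump z|
      ≤ lap bump z * Ψ z := by
    intro z
    rcases le_or_gt (rsq z) 1 with hz | hz
    · have h1 := mul_le_mul_of_nonneg_left (h z hz) (abs_nonneg (lap bump z))
      rw [← abs_mul] at h1
      nlinarith [abs_le.1 h1]
    · simp [lap_bump_eq_zero hz]
  have := integral_mono (i0.sub i2) i1 hle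
  simp only [Pi.sub_apply] at this
  rw [integral_sub i0 i2, integral_const_mul] at this
  have e : ∫ z, lap bump z * (m * ((l1 * z.1 + l2 * z.2) ^ 2 / 2))
      = m * (l1 ^ 2 + l2 ^ 2) * ∫ z, bump z := by
    rw [mul_assoc, ← integral_lap_bump_quad l1 l2, ← integral_const_mul]
    exact integral_congr_ae (Filter.Eventually.of_forall fun z => by ring)
  linarith

/-- Change of variables `x ↦ Λ (x - p)`. -/
lemma integral_zoom {Λ : ℝ} (hΛ : 0 < Λ) (p : P2) (F : P2 → ℝ) :
    ∫ x, F (zoom Λ p x) = (Λ ^ 2)⁻¹ * ∫ z, F z := by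
  have e : (fun x : P2 => F (zoom Λ p x)) = fun x => (fun y => F (Λ • y)) (x - p) := by
    funext x; simp [zoom, smul_eq_mul, Prod.smul_def]
  rw [e, integral_sub_right_eq_self (fun y => F (Λ • y)) p, Measure.integral_comp_smul]
  simp [abs_of_nonneg (inv_nonneg.2 (sq_nonneg Λ))]

end Vale.Agent.P229.Test
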