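import Vale.Agent.P229.Calc

/-!
# P229 seat D: one-variable profiles

* `root`: a smooth global extension of `Real.sqrt` from `[1/25, 3/2]` with values away from zero;
* `gProf`: `t ^ 2 / 2` on `[-2, 2]`, supported in `[-3, 3]`;
* `chiS`: one on `[-14/25, 14/25]`, supported in `[-16/25, 16/25]`.
-/

namespace Vale.Agent.P229.Test

open Real
open scoped ContDiff

/-- A smooth clamp into `[3/100, 2]`, the identity on `[1/25, 3/2]`. -/
noncomputable def clamp (t : ℝ) : ℝ :=
  (3/100 + (t - 3/100) * smoothTransition (100 * t - 3)) * (1 - smoothTransition (2 * t - 3))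
    + 2 * smoothTransition (2 * t - 3)

/-- Smooth extension of the square root. -/
noncomputable def root (t : ℝ) : ℝ := Real.sqrt (clamp t)

/-- The packet profile. -/
noncomputable def gProf (t : ℝ) : ℝ := t ^ 2 / 2 * smoothTransition ((9 - t ^ 2) / 5)

/-- The band cut-off. -/
noncomputable def chiS (t : ℝ) : ℝ :=
  smoothTransition (((16/25 : ℝ) ^ 2 - t ^ 2) / ((16/25 : ℝ) ^ 2 - (14/25 : ℝ) ^ 2))

lemma clamp_of_mem {t : ℝ} (h₁ : 1/25 ≤ t) (h₂ : t ≤ 3/2) : clamp t = t := by
  rw [clamp, smoothTransition.one_of_one_le (by linarith),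
    smoothTransition.zero_of_nonpos (by linarith)]
  ring

lemma le_clamp (t : ℝ) : 3/100 ≤ clamp t := by
  have a₀ := smoothTransition.nonneg (100 * t - 3)
  have b₀ := smoothTransition.nonneg (2 * t - 3)
  have b₁ := smoothTransition.le_one (2 * t - 3)
  have key : 0 ≤ (t - 3/100) * smoothTransition (100 * t - 3) := by
    rcases le_or_gt t (3/100) with h | h
    · rw [smoothTransition.zero_of_nonpos (by linarith), mul_zero]
    · exact mul_nonneg (by linarith) a₀
  have := mul_nonneg key (sub_nonneg.2 b₁)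
  rw [clamp]; nlinarith

lemma clamp_le (t : ℝ) : clamp t ≤ 2 := by
  have a₀ := smoothTransition.nonneg (100 * t - 3)
  have a₁ := smoothTransition.le_one (100 * t - 3)
  have b₀ := smoothTransition.nonneg (2 * t - 3)
  have b₁ := smoothTransition.le_one (2 * t - 3)
  rcases le_or_gt 2 t with h | h
  · rw [clamp, smoothTransition.one_of_one_le (x := 2 * t - 3) (by linarith)]; linarith
  · have : 3/100 + (t - 3/100) * smoothTransition (100 * t - 3) ≤ 2 := by
      rcases le_or_gt t (3/100) with h' | h'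
      · rw [smoothTransition.zero_of_nonpos (by linarith), mul_zero]; norm_num
      · nlinarith
    have := mul_le_mul_of_nonneg_right this (sub_nonneg.2 b₁)
    rw [clamp]; linarith

lemma contDiff_clamp {n : ℕ∞} : ContDiff ℝ n clamp := by
  unfold clamp
  have h₁ : ContDiff ℝ n fun t : ℝ => smoothTransition (100 * t - 3) :=
    smoothTransition.contDiff.comp ((contDiff_const.mul contDiff_id).sub contDiff_const)
  have h₂ : ContDiff ℝ n fun t : ℝ => smoothTransition (2 * t - 3) :=
    smoothTransition.contDiff.comp ((contDiff_const.mul contDiff_id).sub contDiff_const)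
  exact ((contDiff_const.add ((contDiff_id.sub contDiff_const).mul h₁)).mul
    (contDiff_const.sub h₂)).add (contDiff_const.mul h₂)

lemma contDiff_root {n : ℕ∞} : ContDiff ℝ n root :=
  contDiff_clamp.sqrt fun t => by linarith [le_clamp t]

lemma root_pos (t : ℝ) : 0 < root t := Real.sqrt_pos.2 (by linarith [le_clamp t])

lemma one_six_le_root (t : ℝ) : 1/6 ≤ root t :=
  Real.le_sqrt_of_sq_le (by linarith [le_clamp t])

lemma root_le (t : ℝ) : root t ≤ 3/2 :=
  Real.sqrt_le_iff.2 ⟨by norm_num, by linarith [clamp_le t]⟩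

lemma root_sq {t : ℝ} (h₁ : 1/25 ≤ t) (h₂ : t ≤ 3/2) : root t ^ 2 = t := by
  rw [root, Real.sq_sqrt (by linarith [le_clamp t]), clamp_of_mem h₁ h₂]

lemma le_root {c t : ℝ} (hc : 0 ≤ c) (h₀ : c ^ 2 ≤ t) (h₁ : 1/25 ≤ t) (h₂ : c ^ 2 ≤ 3/2) :
    c ≤ root t := by
  apply Real.le_sqrt_of_sq_le
  rcases le_or_gt t (3/2) with h | h
  · rw [clamp_of_mem h₁ h]; exact h₀
  · have hs : smoothTransition (100 * t - 3) = 1 := smoothTransition.one_of_one_le (by linarith)
    have b₀ := smoothTransition.nonneg (2 * t - 3)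
    have b₁ := smoothTransition.le_one (2 * t - 3)
    rw [clamp, hs]
    nlinarith

/-- A continuous function which is locally constant outside a compact interval is bounded. -/
lemma exists_abs_le {f : ℝ → ℝ} (hf : Continuous f) {a b : ℝ}
    (h : ∀ t, t ∉ Set.Icc a b → f t = 0) : ∃ C : ℝ, 0 ≤ C ∧ ∀ t, |f t| ≤ C := by
  obtain ⟨C, hC⟩ := isCompact_Icc.exists_bound_of_continuousOn (s := Set.Icc a b) hf.continuousOn
  refine ⟨max C 0, le_max_right _ _, fun t => ?_⟩
  by_cases ht : t ∈ Set.Icc a b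
  · exact le_max_of_le_left (by simpa [Real.norm_eq_abs] using hC t ht)
  · rw [h t ht, abs_zero]; exact le_max_right _ _

lemma root_eventuallyEq_const {t : ℝ} (ht : t ∉ Set.Icc (0 : ℝ) 3) :
    ∃ c : ℝ, root =ᶠ[nhds t] fun _ => c := by
  simp only [Set.mem_Icc, not_and_or, not_le] at ht
  rcases ht with ht | ht
  · refine ⟨Real.sqrt (3/100), ?_⟩
    filter_upwards [eventually_lt_nhds ht] with u hu
    rw [root, clamp, smoothTransition.zero_of_nonpos (x := 100 * u - 3) (by linarith),
      smoothTransition.zero_of_nonpos (x := 2 * u - 3) (by linarith)]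
    congr 1; ring
  · refine ⟨Real.sqrt 2, ?_⟩
    filter_upwards [eventually_gt_nhds ht] with u hu
    rw [root, clamp, smoothTransition.one_of_one_le (x := 2 * u - 3) (by linarith)]
    congr 1; ring

lemma deriv_root_eq_zero {t : ℝ} (ht : t ∉ Set.Icc (0 : ℝ) 3) :
    deriv root t = 0 ∧ deriv (deriv root) t = 0 := by
  obtain ⟨c, hc⟩ := root_eventuallyEq_const ht
  refine ⟨by rw [hc.deriv_eq]; simp, ?_⟩
  rw [hc.deriv.deriv_eq]; simp

lemma exists_root_bound :
    ∃ C : ℝ, 0 ≤ C ∧ ∀ t, |deriv root t| ≤ C ∧ |deriv (deriv root) t| ≤ C := by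
  have h1 : ContDiff ℝ 1 (deriv root) :=
    (contDiff_succ_iff_deriv.1 (contDiff_root (n := 2))).2.2
  obtain ⟨C₁, h₁, b₁⟩ := exists_abs_le h1.continuous fun t ht => (deriv_root_eq_zero ht).1
  obtain ⟨C₂, h₂, b₂⟩ :=
    exists_abs_le (h1.continuous_deriv le_rfl) fun t ht => (deriv_root_eq_zero ht).2
  exact ⟨max C₁ C₂, le_max_of_le_left h₁,
    fun t => ⟨(b₁ t).trans (le_max_left _ _), (b₂ t).trans (le_max_right _ _)⟩⟩

lemma contDiff_gProf {n : ℕ∞} : ContDiff ℝ n gProf := by
  unfold gProf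
  exact ((contDiff_id.pow 2).div_const 2).mul
    (smoothTransition.contDiff.comp ((contDiff_const.sub (contDiff_id.pow 2)).div_const 5))

lemma gProf_of_abs_le {t : ℝ} (h : |t| ≤ 2) : gProf t = t ^ 2 / 2 := by
  have : t ^ 2 ≤ 4 := by nlinarith [sq_abs t, abs_nonneg t]
  rw [gProf, smoothTransition.one_of_one_le (by linarith), mul_one]

lemma gProf_eq_zero {t : ℝ} (h : 3 ≤ |t|) : gProf t = 0 := by
  have : 9 ≤ t ^ 2 := by nlinarith [sq_abs t, abs_nonneg t]
  rw [gProf, smoothTransition.zero_of_nonpos (by linarith), mul_zero]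

lemma abs_gProf_le (t : ℝ) : |gProf t| ≤ 9/2 := by
  rcases le_or_gt 3 |t| with h | h
  · rw [gProf_eq_zero h]; norm_num
  · have : t ^ 2 ≤ 9 := by nlinarith [sq_abs t, abs_nonneg t]
    rw [gProf, abs_mul, abs_of_nonneg (by positivity : (0:ℝ) ≤ t ^ 2 / 2),
      abs_of_nonneg (smoothTransition.nonneg _)]
    nlinarith [smoothTransition.le_one ((9 - t ^ 2) / 5), smoothTransition.nonneg ((9 - t ^ 2) / 5)]

lemma contDiff_chiS {n : ℕ∞} : ContDiff ℝ n chiS := by
  unfold chiS
  exact smoothTransition.contDiff.comp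
    ((contDiff_const.sub (contDiff_id.pow 2)).div_const _)

lemma chiS_eq_one {t : ℝ} (h : |t| ≤ 14/25) : chiS t = 1 := by
  apply smoothTransition.one_of_one_le
  have : t ^ 2 ≤ (14/25 : ℝ) ^ 2 := by nlinarith [sq_abs t, abs_nonneg t]
  rw [le_div_iff₀ (by norm_num)]; linarith

lemma chiS_eq_zero {t : ℝ} (h : 16/25 ≤ |t|) : chiS t = 0 := by
  apply smoothTransition.zero_of_nonpos
  have : (16/25 : ℝ) ^ 2 ≤ t ^ 2 := by nlinarith [sq_abs t, abs_nonneg t]
  exact div_nonpos_of_nonpos_of_nonneg (by linarith) (by norm_num)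

lemma chiS_mem (t : ℝ) : 0 ≤ chiS t ∧ chiS t ≤ 1 :=
  ⟨smoothTransition.nonneg _, smoothTransition.le_one _⟩

lemma deriv_chiS_eq_zero {t : ℝ} (h : |t| < 14/25) : deriv chiS t = 0 := by
  have : chiS =ᶠ[nhds t] fun _ => 1 := by
    filter_upwards [(isOpen_lt continuous_abs continuous_const).mem_nhds h] with u hu
    exact chiS_eq_one hu.le
  rw [this.deriv_eq]; simp

lemma exists_chiS_bound : ∃ C : ℝ, 0 ≤ C ∧ ∀ t, |deriv chiS t| ≤ C := by
  refine exists_abs_le (a := -1) (b := 1) ((contDiff_chiS (n := 1)).continuous_deriv le_rfl) ?_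
  intro t ht
  have h1 : 1 < |t| := by
    by_contra h
    exact ht (Set.mem_Icc.2 (abs_le.1 (not_lt.1 h)))
  have : chiS =ᶠ[nhds t] fun _ => 0 := by
    filter_upwards [(isOpen_lt continuous_const continuous_abs).mem_nhds h1] with u hu
    exact chiS_eq_zero (by have : (1:ℝ) < |u| := hu; linarith)
  rw [this.deriv_eq]; simp

end Vale.Agent.P229.Test
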