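import Vale.Agent.P229.Calc
import Vale.Agent.P229.Test.Profiles

/-!
# P229 seat D: the Riemann invariant of the linearised operator in the band
-/

namespace Vale.Agent.P229.Test

open scoped ContDiff

/-- Cut-off making the wave speed globally gentle. -/
noncomputable def chi0 (x : P2) : ℝ := Real.smoothTransition (4 * (29/20 - rsq x))

/-- `a / e` near the unit disc, `1` far away. -/
noncomputable def aStar (P : Coef) (e : ℝ) (x : P2) : ℝ := chi0 x * (P.a x / e - 1) + 1

/-- Wave speed: `sqrt a` in the band, globally positive. -/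
noncomputable def c0 (P : Coef) (e : ℝ) (x : P2) : ℝ := Real.sqrt e * root (aStar P e x)

/-- The characteristic field is `∂₂ - vel ∂₁`. -/
noncomputable def vel (P : Coef) (e : ℝ) (x : P2) : ℝ := P.b x + c0 P e x

/-- `l H = ∂₂ H - vel ∂₁ H`. -/
noncomputable def lOp (P : Coef) (e : ℝ) (H : P2 → ℝ) (x : P2) : ℝ :=
  d2 H x - vel P e x * d1 H x

noncomputable def Rplus (P : Coef) (e : ℝ) (w : P2 → ℝ) (x : P2) : ℝ :=
  P.V w x + c0 P e x * d1 w x

noncomputable def q1 (P : Coef) (e : ℝ) (x : P2) : ℝ :=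
  c0 P e x * d1 P.b x + P.V (c0 P e) x - c0 P e x * d1 (c0 P e) x - P.β x - P.c x * P.b x

noncomputable def alphaP (P : Coef) (e : ℝ) (x : P2) : ℝ :=
  q1 P e x / (2 * c0 P e x) - P.c x / 2

noncomputable def alphaM (P : Coef) (e : ℝ) (x : P2) : ℝ :=
  -(q1 P e x) / (2 * c0 P e x) - P.c x / 2

lemma contDiff_rsq {n : ℕ∞} : ContDiff ℝ n rsq := by
  unfold rsq
  exact (contDiff_fst.pow 2).add (contDiff_snd.pow 2)

lemma contDiff_chi0 {n : ℕ∞} : ContDiff ℝ n chi0 := by
  unfold chi0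
  exact Real.smoothTransition.contDiff.comp
    (contDiff_const.mul (contDiff_const.sub contDiff_rsq))

lemma aStar_eq (P : Coef) (e : ℝ) {x : P2} (h : rsq x ≤ 6/5) : aStar P e x = P.a x / e := by
  rw [aStar, chi0, Real.smoothTransition.one_of_one_le (by linarith)]
  ring

variable {P : Coef} {e : ℝ}

lemma contDiff_c0 {n : ℕ} (ha : ContDiff ℝ n P.a) : ContDiff ℝ n (c0 P e) := by
  unfold c0 aStar
  exact contDiff_const.mul (contDiff_root.comp
    ((contDiff_chi0.mul ((ha.div_const e).sub contDiff_const)).add contDiff_const))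

lemma contDiff_vel {n : ℕ} (hb : ContDiff ℝ n P.b) (ha : ContDiff ℝ n P.a) :
    ContDiff ℝ n (vel P e) := hb.add (contDiff_c0 ha)

lemma c0_pos (he : 0 < e) (x : P2) : 0 < c0 P e x :=
  mul_pos (Real.sqrt_pos.2 he) (root_pos _)

lemma c0_sq (he : 0 < e) {x : P2} (h : rsq x ≤ 6/5) (h₁ : e / 25 ≤ P.a x)
    (h₂ : P.a x ≤ 3/2 * e) : c0 P e x ^ 2 = P.a x := by
  rw [c0, aStar_eq P e h, mul_pow, Real.sq_sqrt he.le,
    root_sq (by rw [le_div_iff₀ he]; linarith) (by rw [div_le_iff₀ he]; linarith)]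
  field_simp

/-- The Riemann invariant solves a transport equation where `c0 ^ 2 = a`. -/
theorem lOp_Rplus (hb : ContDiff ℝ 1 P.b) (ha : ContDiff ℝ 1 P.a) (he : 0 < e) {w : P2 → ℝ}
    (hw : ContDiff ℝ 2 w) {x : P2} (hx : c0 P e x ^ 2 = P.a x) :
    lOp P e (Rplus P e w) x =
      P.op w x + alphaP P e x * Rplus P e w x + alphaM P e x * lOp P e w x := by
  have hc := c0_pos (P := P) he x
  have db := (hb.differentiable one_ne_zero) x
  have dc : DifferentiableAt ℝ (c0 P e) x :=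
    (contDiff_c0 (n := 1) ha).differentiable (by norm_num) x
  have dp : DifferentiableAt ℝ (d1 w) x := (contDiff_d1 (n := 1) hw).differentiable (by norm_num) x
  have dq : DifferentiableAt ℝ (d2 w) x := (contDiff_d2 (n := 1) hw).differentiable (by norm_num) x
  have du : DifferentiableAt ℝ (P.V w) x := dq.sub (db.mul dp)
  have hu1 : d1 (P.V w) x = d1 (d2 w) x - (d1 P.b x * d1 w x + P.b x * d1 (d1 w) x) := by
    show d1 (fun y => d2 w y - P.b y * d1 w y) x = _
    rw [d1_sub dq (db.fun_mul dp), d1_mul db dp]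
  have e1 : d1 (Rplus P e w) x =
      d1 (P.V w) x + (d1 (c0 P e) x * d1 w x + c0 P e x * d1 (d1 w) x) := by
    show d1 (fun y => P.V w y + c0 P e y * d1 w y) x = _
    rw [d1_add du (dc.fun_mul dp), d1_mul dc dp]
  have e2 : d2 (Rplus P e w) x =
      d2 (P.V w) x + (d2 (c0 P e) x * d1 w x + c0 P e x * d2 (d1 w) x) := by
    show d2 (fun y => P.V w y + c0 P e y * d1 w y) x = _
    rw [d2_add du (dc.fun_mul dp), d2_mul dc dp]
  unfold lOp
  rw [e1, e2]
  simp only [alphaP, alphaM, q1, Rplus, vel, Coef.op, Coef.V, d1_d2 hw] at hu1 ⊢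
  simp only [← hx]
  rw [hu1]
  field_simp
  ring

end Vale.Agent.P229.Test
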