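import Vale.Agent.P229.LabelOK
import Vale.Agent.P229.Test.Bump
import Vale.Agent.P229.Test.Riemann
import Vale.Agent.P229.Test.Bounds

/-!
# P229 seat D: facts about the band

* `exists_speed_vel`: the wave speed is a `Speed` with small constants;
* `band_exit`: a packet label and a small transported label confine a point to the band;
* `exists_coef_bounds`: uniform first-order bounds for the coefficients of the Riemann system.
-/

namespace Vale.Agent.P229.Test

open Set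
open scoped ContDiff

variable {P : Coef} {e τ K σ : ℝ}

lemma hasCompactSupport_chi0 : HasCompactSupport chi0 :=
  HasCompactSupport.intro (isCompact_dsk (29/20)) fun x hx => by
    have : (29/20 : ℝ) < rsq x := not_le.1 hx
    exact Real.smoothTransition.zero_of_nonpos (by linarith)

lemma chi0_mem (x : P2) : 0 ≤ chi0 x ∧ chi0 x ≤ 1 :=
  ⟨Real.smoothTransition.nonneg _, Real.smoothTransition.le_one _⟩

lemma chi0_eq_zero {x : P2} (h : 29/20 ≤ rsq x) : chi0 x = 0 :=
  Real.smoothTransition.zero_of_nonpos (by linarith)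

lemma fderiv_chi0_eq_zero {x : P2} (h : 29/20 ≤ rsq x) : fderiv ℝ chi0 x = 0 :=
  IsLocalMin.fderiv_eq_zero (Filter.Eventually.of_forall fun y => by
    rw [chi0_eq_zero h]; exact (chi0_mem y).1)

lemma exists_chi0_bound : ∃ C : ℝ, 0 ≤ C ∧ ∀ x,
    ∀ k : ℕ, k ≤ 2 → ‖iteratedFDeriv ℝ k chi0 x‖ ≤ C := by
  have b : ∀ k : ℕ, ∃ C, ∀ x, ‖iteratedFDeriv ℝ k chi0 x‖ ≤ C := fun k =>
    ((contDiff_chi0 (n := (k : ℕ∞))).continuous_iteratedFDeriv
      le_rfl).bounded_above_of_compact_support (hasCompactSupport_chi0.iteratedFDeriv k)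
  choose C hC using b
  refine ⟨|C 0| + |C 1| + |C 2|, by positivity, fun x k hk => (hC k x).trans ?_⟩
  interval_cases k <;>
    linarith [abs_nonneg (C 0), abs_nonneg (C 1), abs_nonneg (C 2), le_abs_self (C 0),
      le_abs_self (C 1), le_abs_self (C 2)]

lemma d1_aStar (ha : ContDiff ℝ 1 P.a) (x : P2) :
    d1 (aStar P e) x = d1 chi0 x * (P.a x / e - 1) + chi0 x * (d1 P.a x / e) := by
  have a := ha.differentiable one_ne_zero x
  have c := (contDiff_chi0 (n := 1)).differentiable (by norm_num) x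
  have d : DifferentiableAt ℝ (fun y => P.a y / e - 1) x := by fun_prop
  have h : d1 (fun y => P.a y / e - 1) x = d1 P.a x / e := by
    have e' : (fun y => P.a y / e - 1) = fun y => e⁻¹ * P.a y + (-1) := by funext y; ring
    rw [e', d1_add (a.const_mul _) (differentiableAt_const _), d1_const_mul _ a, d1_const]
    ring
  show d1 (fun y => chi0 y * (P.a y / e - 1) + 1) x = _
  rw [d1_add (c.fun_mul d) (differentiableAt_const _), d1_const, d1_mul c d, h, add_zero]

/-- The wave speed is globally slow, with slow variation along `x₁`. -/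
theorem exists_speed_vel : ∃ C₁ : ℝ, 0 ≤ C₁ ∧ ∀ (e : ℝ) (P : Coef) (τ K σ : ℝ),
    0 < e → τ ≤ 1/4 → P.Good e τ K σ →
      Speed (vel P e) (τ + 2 * Real.sqrt e) (τ + C₁ * Real.sqrt e) := by
  obtain ⟨Cχ, hCχ, bχ⟩ := exists_chi0_bound
  obtain ⟨Cr, hCr, br⟩ := exists_root_bound
  refine ⟨Cr * (2 * Cχ + 3), by positivity, fun e P τ K σ he hτ h => ?_⟩
  have ha : ContDiff ℝ 1 P.a := h.ha.of_le (by norm_cast)
  have hb : ContDiff ℝ 1 P.b := h.hb.of_le (by norm_cast)
  have hτ0 : 0 ≤ τ := (abs_nonneg _).trans (h.b0 0)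
  refine ⟨contDiff_vel (n := 1) hb ha, fun x => ?_, fun x => ?_⟩
  · refine (abs_add_le _ _).trans (add_le_add (h.b0 x) ?_)
    rw [c0, abs_mul, abs_of_nonneg (Real.sqrt_nonneg _), abs_of_pos (root_pos _),
      mul_comm 2 (Real.sqrt e)]
    exact mul_le_mul_of_nonneg_left (by linarith [root_le (aStar P e x)]) (Real.sqrt_nonneg _)
  · have dc : DifferentiableAt ℝ (c0 P e) x :=
      (contDiff_c0 (n := 1) ha).differentiable (by norm_num) x
    have dA : DifferentiableAt ℝ (aStar P e) x := by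
      have a := ha.differentiable one_ne_zero x
      have c := (contDiff_chi0 (n := 1)).differentiable (by norm_num) x
      unfold aStar
      fun_prop
    have e1 : d1 (c0 P e) x = Real.sqrt e * (deriv root (aStar P e x) * d1 (aStar P e) x) := by
      have hr := (contDiff_root (n := 1)).differentiable (by norm_num) (aStar P e x)
      have hcomp : DifferentiableAt ℝ (fun y => root (aStar P e y)) x := hr.comp x dA
      show d1 (fun y => Real.sqrt e * root (aStar P e y)) x = _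
      rw [d1_const_mul _ hcomp, d1_comp hr dA]
    have hA : |d1 (aStar P e) x| ≤ 2 * Cχ + 3 := by
      rw [d1_aStar ha]
      rcases le_or_gt (29/20) (rsq x) with hx | hx
      · rw [d1, fderiv_chi0_eq_zero hx, chi0_eq_zero hx]
        simp only [zero_apply, zero_mul, add_zero, abs_zero]
        positivity
      · have hd : x ∈ Dsk (3/2) := by show rsq x ≤ 3/2; linarith
        have hr0 : 0 ≤ rsq x := by unfold rsq; positivity
        have u1 : |P.a x / e - 1| ≤ 2 := by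
          obtain ⟨p, q⟩ := abs_le.1 (h.a0 x hd)
          rw [abs_le]
          constructor
          · rw [le_sub_iff_add_le, le_div_iff₀ he]; nlinarith
          · rw [sub_le_iff_le_add, div_le_iff₀ he]; nlinarith
        have hx1 : |x.1| ≤ 5/4 := by
          unfold rsq at hx
          rw [abs_le]; constructor <;> nlinarith [sq_nonneg x.2]
        have u2 : |d1 P.a x / e| ≤ 3 := by
          obtain ⟨p, q⟩ := abs_le.1 (h.a1 x hd)
          obtain ⟨p', q'⟩ := abs_le.1 hx1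
          rw [abs_div, abs_of_pos he, div_le_iff₀ he, abs_le]
          constructor <;> nlinarith
        have u3 : |d1 chi0 x| ≤ Cχ :=
          (abs_fderiv_le _ x norm_e1).trans (bχ x 1 (by norm_num))
        refine (abs_add_le _ _).trans (add_le_add ?_ ?_) <;> rw [abs_mul]
        · exact (mul_le_mul u3 u1 (abs_nonneg _) hCχ).trans_eq (mul_comm _ _)
        · calc |chi0 x| * |d1 P.a x / e| ≤ 1 * 3 :=
                mul_le_mul (by rw [abs_of_nonneg (chi0_mem x).1]; exact (chi0_mem x).2) u2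
                  (abs_nonneg _) zero_le_one
            _ = 3 := one_mul _
    show |d1 (fun y => P.b y + c0 P e y) x| ≤ _
    rw [d1_add (hb.differentiable one_ne_zero x) dc, e1]
    refine (abs_add_le _ _).trans (add_le_add (h.b1 x) ?_)
    rw [abs_mul, abs_mul, abs_of_nonneg (Real.sqrt_nonneg e),
      mul_comm (Cr * (2 * Cχ + 3)) (Real.sqrt e)]
    exact mul_le_mul_of_nonneg_left (mul_le_mul (br _).1 hA (abs_nonneg _) hCr) (Real.sqrt_nonneg _)

/-- Five steps on either side of height zero. -/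
lemma band_drop (φ : ℝ → ℝ) (r τ : ℝ) (hr : 0 ≤ r) (hτ : τ ≤ 1/10000)
    (key : ∀ c l u : ℝ, 0 ≤ c → -(9/10) ≤ l → u ≤ 9/10 → l ≤ u →
      (∀ t, l < t → t < u → c ^ 2 + t ^ 2 ≤ 1 - 1/1000) →
      φ u - φ l ≤ -(r * c * (1 - 4 * τ)) * (u - l)) :
    r * (16/25) ≤ φ 0 - φ (9/10) - r / 20 ∧ r * (16/25) ≤ φ (-(9/10)) - φ 0 - r / 20 := by
  have sq : ∀ c l u : ℝ, 0 ≤ l → c ^ 2 + u ^ 2 ≤ 1 - 1/1000 → ∀ t, l < t → t < u →
      c ^ 2 + t ^ 2 ≤ 1 - 1/1000 := fun c l u hl h t ht ht' => by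
    have : t ^ 2 ≤ u ^ 2 := pow_le_pow_left₀ (hl.trans ht.le) ht'.le 2
    linarith
  have sq' : ∀ c l u : ℝ, u ≤ 0 → c ^ 2 + l ^ 2 ≤ 1 - 1/1000 → ∀ t, l < t → t < u →
      c ^ 2 + t ^ 2 ≤ 1 - 1/1000 := fun c l u hu h t ht ht' => by
    have : (-t) ^ 2 ≤ (-l) ^ 2 := pow_le_pow_left₀ (by linarith) (by linarith) 2
    linarith [neg_sq t, neg_sq l]
  have k1 := key (983/1000) 0 (9/50) (by norm_num) (by norm_num) (by norm_num) (by norm_num)
    (sq _ _ _ (by norm_num) (by norm_num))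
  have k2 := key (932/1000) (9/50) (18/50) (by norm_num) (by norm_num) (by norm_num) (by norm_num)
    (sq _ _ _ (by norm_num) (by norm_num))
  have k3 := key (841/1000) (18/50) (27/50) (by norm_num) (by norm_num) (by norm_num) (by norm_num)
    (sq _ _ _ (by norm_num) (by norm_num))
  have k4 := key (693/1000) (27/50) (36/50) (by norm_num) (by norm_num) (by norm_num) (by norm_num)
    (sq _ _ _ (by norm_num) (by norm_num))
  have k5 := key (434/1000) (36/50) (9/10) (by norm_num) (by norm_num) (by norm_num) (by norm_num)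
    (sq _ _ _ (by norm_num) (by norm_num))
  have m1 := key (983/1000) (-(9/50)) 0 (by norm_num) (by norm_num) (by norm_num) (by norm_num)
    (sq' _ _ _ (by norm_num) (by norm_num))
  have m2 := key (932/1000) (-(18/50)) (-(9/50)) (by norm_num) (by norm_num) (by norm_num)
    (by norm_num) (sq' _ _ _ (by norm_num) (by norm_num))
  have m3 := key (841/1000) (-(27/50)) (-(18/50)) (by norm_num) (by norm_num) (by norm_num)
    (by norm_num) (sq' _ _ _ (by norm_num) (by norm_num))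
  have m4 := key (693/1000) (-(36/50)) (-(27/50)) (by norm_num) (by norm_num) (by norm_num)
    (by norm_num) (sq' _ _ _ (by norm_num) (by norm_num))
  have m5 := key (434/1000) (-(9/10)) (-(36/50)) (by norm_num) (by norm_num) (by norm_num)
    (by norm_num) (sq' _ _ _ (by norm_num) (by norm_num))
  have hrτ : r * τ ≤ r * (1/10000) := mul_le_mul_of_nonneg_left hτ hr
  constructor <;> linarith

/-- A packet whose transported label is small stays in the hyperbolic band. -/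
theorem band_exit (he : 0 < e) (he₀ : e ≤ 1/100000000) (hτ : τ ≤ 1/10000)
    (h : P.Good e τ K σ) {x : P2} (hS : |label (vel P e) x| ≤ Real.sqrt e / 20)
    (hs : |label P.b x| < 16/25 * Real.sqrt e) :
    |x.2| ≤ 9/10 ∧ |x.1| ≤ Real.sqrt e / 20 + (τ + 2 * Real.sqrt e) ∧ rsq x < 9/10 ∧
      e / 25 ≤ P.a x ∧ P.a x ≤ 3/2 * e ∧ c0 P e x ^ 2 = P.a x := by
  obtain ⟨C₁, -, hC⟩ := exists_speed_vel
  have hV := hC e P τ K σ he (by linarith) h
  have hB := speed_of_good h
  have hLab := labelOK_of_good h (by linarith)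
  have hτ0 : 0 ≤ τ := (abs_nonneg _).trans (h.b0 0)
  set r := Real.sqrt e with hr
  have hr0 : 0 < r := Real.sqrt_pos.2 he
  have hr1 : r ≤ 1/10000 := Real.sqrt_le_iff.2 ⟨by norm_num, by linarith⟩
  set X := flow (vel P e) x with hX
  set φ : ℝ → ℝ := fun t => label P.b (X t, t) with hφ
  have hd : ∀ t, HasDerivAt φ (-(c0 P e (X t, t) * d1 (label P.b) (X t, t))) t := by
    intro t
    have h1 : HasDerivAt (fun t => ((X t, t) : P2)) (-vel P e (X t, t), 1) t :=
      (hV.flow_hasDeriv x t).prodMk (hasDerivAt_id t)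
    have h2 := HasFDerivAt.comp_hasDerivAt (f := fun t => ((X t, t) : P2)) t
      (hB.hasFDerivAt_label (X t, t)) h1
    refine h2.congr_deriv ?_
    simp only [hB.d1_label, vel, add_apply, smul_apply, ContinuousLinearMap.coe_fst',
      ContinuousLinearMap.coe_snd', smul_eq_mul]
    ring
  have hneg : ∀ t, deriv φ t ≤ 0 := fun t => by
    rw [(hd t).deriv, neg_nonpos]
    exact (mul_pos (c0_pos he _) (hB.d1_label_pos _)).le
  have hanti : Antitone φ := antitone_of_deriv_nonpos (fun t => (hd t).differentiableAt) hneg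
  have hX0 : |X 0| ≤ r / 20 := hS
  have hφ0 : φ 0 = X 0 := hB.label_zero _
  have hφx : φ x.2 = label P.b x := by simp [φ, X, hV.flow_zero]
  have hXb : ∀ t, |t| ≤ 9/10 → |X t| ≤ r / 20 + (τ + 2 * r) ∧
      (X t, t) ∈ Dsk (3/2) ∧ rsq (X t, t) ≤ t ^ 2 + 1/2000000 := by
    intro t ht
    have h1 := hV.abs_flow_sub x 0 t
    rw [sub_zero] at h1
    have h2 : |X t| ≤ r / 20 + (τ + 2 * r) := by
      have h3 : (τ + 2 * r) * |t| ≤ τ + 2 * r := mul_le_of_le_one_right (by positivity) (by linarith)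
      linarith [abs_sub_abs_le_abs_sub (X t) (X 0)]
    have h4 : X t ^ 2 ≤ 1/2000000 := by nlinarith [sq_abs (X t), abs_nonneg (X t)]
    have h5 : t ^ 2 ≤ 81/100 := by nlinarith [sq_abs t, abs_nonneg t]
    refine ⟨h2, ?_, by unfold rsq; linarith⟩
    show rsq (X t, t) ≤ 3/2
    unfold rsq; linarith
  have key : ∀ c l u : ℝ, 0 ≤ c → -(9/10) ≤ l → u ≤ 9/10 → l ≤ u →
      (∀ t, l < t → t < u → c ^ 2 + t ^ 2 ≤ 1 - 1/1000) →
      φ u - φ l ≤ -(r * c * (1 - 4 * τ)) * (u - l) := by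
    intro c l u hc hl hu hlu hct
    refine (convex_Icc l u).image_sub_le_mul_sub_of_deriv_le
      (fun t _ => (hd t).continuousAt.continuousWithinAt)
      (fun t _ => (hd t).differentiableAt.differentiableWithinAt) (fun t ht => ?_) l
      (left_mem_Icc.2 hlu) u (right_mem_Icc.2 hlu) hlu
    rw [interior_Icc] at ht
    have ht9 : |t| ≤ 9/10 := abs_le.2 ⟨by linarith [ht.1], by linarith [ht.2]⟩
    obtain ⟨-, hD, hR⟩ := hXb t ht9
    have hct' := hct t ht.1 ht.2
    have ha : c ^ 2 ≤ P.a (X t, t) / e ∧ 1/25 ≤ P.a (X t, t) / e := by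
      obtain ⟨p, -⟩ := abs_le.1 (h.a0 _ hD)
      have h5 : t ^ 2 ≤ 81/100 := by nlinarith [sq_abs t, abs_nonneg t]
      constructor <;> rw [le_div_iff₀ he] <;> nlinarith
    have hroot : c ≤ root (aStar P e (X t, t)) := by
      rw [aStar_eq P e (by nlinarith [sq_abs t, abs_nonneg t])]
      exact le_root hc ha.1 ha.2 (by nlinarith [sq_nonneg t])
    have hs1 : 1 - 4 * τ ≤ d1 (label P.b) (X t, t) := by
      linarith [(abs_le.1 (hLab.s1 _ hD)).1]
    rw [(hd t).deriv, neg_le_neg_iff, c0]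
    exact mul_le_mul (mul_le_mul_of_nonneg_left hroot hr0.le) hs1 (by linarith)
      (mul_nonneg hr0.le (root_pos _).le)
  have hdrop := band_drop φ r τ hr0.le hτ key
  have hy : |x.2| ≤ 9/10 := by
    obtain ⟨p, q⟩ := abs_le.1 hX0
    obtain ⟨p', q'⟩ := abs_lt.1 hs
    rw [abs_le]
    constructor
    · by_contra hc
      have := hanti (le_of_lt (not_le.1 hc))
      rw [hφx] at this
      linarith
    · by_contra hc
      have := hanti (le_of_lt (not_le.1 hc))
      rw [hφx] at this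
      linarith
  obtain ⟨h1, hD, hR⟩ := hXb x.2 hy
  have hXy : X x.2 = x.1 := hV.flow_zero x
  rw [hXy] at h1 hD hR
  have hy2 : x.2 ^ 2 ≤ 81/100 := by nlinarith [sq_abs x.2, abs_nonneg x.2]
  have hrsq : rsq x ≤ 81/100 + 1/2000000 := le_trans hR (by linarith)
  obtain ⟨p, q⟩ := abs_le.1 (h.a0 x hD)
  have hn : 0 ≤ rsq x := by unfold rsq; positivity
  have a1 : e / 25 ≤ P.a x := by nlinarith
  have a2 : P.a x ≤ 3/2 * e := by nlinarith
  exact ⟨hy, h1, by linarith, a1, a2, c0_sq he (by linarith) a1 a2⟩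

/-- Uniform first-order bounds for the speed, the amplitude rates and their ingredients. -/
theorem exists_coef_bounds (elo ehi K : ℝ) (helo : 0 < elo) : ∃ C : ℝ, 0 ≤ C ∧
    ∀ (e : ℝ) (P : Coef) (τ σ : ℝ), e ∈ Icc elo ehi → P.Good e τ K σ →
      ContDiff ℝ 1 (alphaP P e) ∧ ContDiff ℝ 1 (alphaM P e) ∧ ContDiff ℝ 2 (vel P e) ∧
      ∀ x, (|alphaP P e x| ≤ C ∧ |d1 (alphaP P e) x| ≤ C ∧ |d2 (alphaP P e) x| ≤ C) ∧
        (|alphaM P e x| ≤ C ∧ |d1 (alphaM P e) x| ≤ C ∧ |d2 (alphaM P e) x| ≤ C) ∧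
        (|vel P e x| ≤ C ∧ |d1 (vel P e) x| ≤ C ∧ |d2 (vel P e) x| ≤ C) ∧
        (|d1 (d1 (vel P e)) x| ≤ C ∧ |d2 (d1 (vel P e)) x| ≤ C) ∧
        (|c0 P e x| ≤ C ∧ |d1 (c0 P e) x| ≤ C ∧ |d2 (c0 P e) x| ≤ C) := by
  let ι : Type := {i : ℝ × Coef // i.1 ∈ Icc elo ehi ∧ ∃ τ σ, i.2.Good i.1 τ K σ}
  let E : ι → ℝ := fun i => i.1.1
  let Q : ι → Coef := fun i => i.1.2
  have hE : ∀ i : ι, 0 < E i := fun i => helo.trans_le i.2.1.1
  have iter2 : ∀ {F : P2 → ℝ}, ContDiff ℝ 3 F → ContDiff ℝ 2 F := fun hF => hF.of_le (by norm_cast)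
  obtain ⟨Bb, Bb1, Bb2⟩ := ub1_of_iterated (f := fun i : ι => (Q i).b) (K := K)
    (fun i => by obtain ⟨τ, σ, hg⟩ := i.2.2; exact iter2 hg.hb)
    (fun i x k hk => by obtain ⟨τ, σ, hg⟩ := i.2.2; exact hg.kb x k (by omega))
  obtain ⟨Ba, Ba1, Ba2⟩ := ub1_of_iterated (f := fun i : ι => (Q i).a) (K := K)
    (fun i => by obtain ⟨τ, σ, hg⟩ := i.2.2; exact iter2 hg.ha)
    (fun i x k hk => by obtain ⟨τ, σ, hg⟩ := i.2.2; exact hg.ka x k (by omega))
  obtain ⟨Bβ, -, -⟩ := ub1_of_iterated (f := fun i : ι => (Q i).β) (K := K)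
    (fun i => by obtain ⟨τ, σ, hg⟩ := i.2.2; exact hg.hβ)
    (fun i x k hk => by obtain ⟨τ, σ, hg⟩ := i.2.2; exact hg.kβ x k hk)
  obtain ⟨Bc, -, -⟩ := ub1_of_iterated (f := fun i : ι => (Q i).c) (K := K)
    (fun i => by obtain ⟨τ, σ, hg⟩ := i.2.2; exact hg.hc)
    (fun i x k hk => by obtain ⟨τ, σ, hg⟩ := i.2.2; exact hg.kc x k hk)
  obtain ⟨Cχ, -, bχ⟩ := exists_chi0_bound
  obtain ⟨Bχ, Bχ1, Bχ2⟩ := ub1_of_iterated (f := fun _ : ι => chi0) (K := Cχ)
    (fun _ => contDiff_chi0 (n := 2)) (fun _ x k hk => bχ x k hk)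
  have Bei : UB1 fun (i : ι) (_ : P2) => (E i)⁻¹ := UB1.const (C := elo⁻¹) fun i => by
    rw [abs_of_pos (inv_pos.2 (hE i))]; exact inv_anti₀ helo i.2.1.1
  have Bsq : UB1 fun (i : ι) (_ : P2) => Real.sqrt (E i) := UB1.const (C := Real.sqrt ehi) fun i => by
    rw [abs_of_nonneg (Real.sqrt_nonneg _)]; exact Real.sqrt_le_sqrt i.2.1.2
  have Bone : UB1 fun (_ : ι) (_ : P2) => (1 : ℝ) := UB1.const (C := 1) fun _ => by simp
  have Btwo : UB1 fun (_ : ι) (_ : P2) => (2 : ℝ) := UB1.const (C := 2) fun _ => by simp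
  have Bhalf : UB1 fun (_ : ι) (_ : P2) => (1/2 : ℝ) := UB1.const (C := 1) fun _ => by norm_num
  have BA : UB1 fun i : ι => aStar (Q i) (E i) :=
    ((Bχ.mul ((Ba.mul Bei).sub Bone)).add Bone).congr fun i x => by
      simp [aStar, div_eq_mul_inv]
  obtain ⟨Cr, -, br⟩ := exists_root_bound
  have Broot : UB1 fun i x => root (aStar (Q i) (E i) x) :=
    BA.comp (contDiff_root (n := 1)) (B := max (3/2) Cr)
      (fun t => by rw [abs_of_pos (root_pos t)]; exact (root_le t).trans (le_max_left _ _))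
      (fun t => (br t).1.trans (le_max_right _ _))
  have hr2 : ContDiff ℝ 1 (deriv root) :=
    (contDiff_succ_iff_deriv.1 (contDiff_root (n := 2))).2.2
  have Broot1 : UB1 fun i x => deriv root (aStar (Q i) (E i) x) :=
    BA.comp hr2 (B := Cr) (fun t => (br t).1) fun t => (br t).2
  have Bc0 : UB1 fun i : ι => c0 (Q i) (E i) := (Bsq.mul Broot).congr fun i x => rfl
  have dA : ∀ (i : ι) x, DifferentiableAt ℝ (aStar (Q i) (E i)) x :=
    fun i x => (BA.1 i).differentiable one_ne_zero x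
  have e1A : UB1 fun i : ι => d1 (aStar (Q i) (E i)) :=
    ((Bχ1.mul ((Ba.mul Bei).sub Bone)).add (Bχ.mul (Ba1.mul Bei))).congr fun i x => by
      rw [d1_aStar (Ba.1 i)]; simp [div_eq_mul_inv]
  have e2A : UB1 fun i : ι => d2 (aStar (Q i) (E i)) :=
    ((Bχ2.mul ((Ba.mul Bei).sub Bone)).add (Bχ.mul (Ba2.mul Bei))).congr fun i x => by
      have a := (Ba.1 i).differentiable one_ne_zero x
      have c := (contDiff_chi0 (n := 1)).differentiable (by norm_num) x
      have e' : aStar (Q i) (E i) = fun y => chi0 y * ((E i)⁻¹ * (Q i).a y + (-1)) + 1 := by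
        funext y; simp only [aStar]; ring
      rw [e', d2_add (c.fun_mul ((a.const_mul _).add_const _)) (differentiableAt_const _),
        d2_mul c ((a.const_mul _).add_const _),
        d2_add (a.const_mul _) (differentiableAt_const _), d2_const_mul _ a, d2_const, d2_const]
      simp only
      ring
  have hroot : ∀ t, DifferentiableAt ℝ root t := fun t =>
    (contDiff_root (n := 1)).differentiable (by norm_num) t
  have Bc1 : UB1 fun i : ι => d1 (c0 (Q i) (E i)) :=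
    (Bsq.mul (Broot1.mul e1A)).congr fun i x => by
      show d1 (fun y => Real.sqrt (E i) * root (aStar (Q i) (E i) y)) x = _
      have hcd : DifferentiableAt ℝ (fun y => root (aStar (Q i) (E i) y)) x := (hroot _).comp x (dA i x)
      rw [d1_const_mul _ hcd, d1_comp (hroot _) (dA i x)]
  have Bc2 : UB1 fun i : ι => d2 (c0 (Q i) (E i)) :=
    (Bsq.mul (Broot1.mul e2A)).congr fun i x => by
      show d2 (fun y => Real.sqrt (E i) * root (aStar (Q i) (E i) y)) x = _
      have hcd : DifferentiableAt ℝ (fun y => root (aStar (Q i) (E i) y)) x := (hroot _).comp x (dA i x)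
      rw [d2_const_mul _ hcd, d2_comp (hroot _) (dA i x)]
  have Bv : UB1 fun i : ι => vel (Q i) (E i) := (Bb.add Bc0).congr fun i x => rfl
  have Bv1 : UB1 fun i : ι => d1 (vel (Q i) (E i)) :=
    (Bb1.add Bc1).congr fun i x =>
      d1_add ((Bb.1 i).differentiable one_ne_zero x) ((Bc0.1 i).differentiable one_ne_zero x)
  have Bq : UB1 fun i : ι => q1 (Q i) (E i) :=
    (((((Bc0.mul Bb1).add (Bc2.sub (Bb.mul Bc1))).sub (Bc0.mul Bc1)).sub Bβ).sub
      (Bc.mul Bb)).congr fun i x => rfl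
  have Binv : UB1 fun i x => (2 * c0 (Q i) (E i) x)⁻¹ :=
    (Btwo.mul Bc0).inv (m := Real.sqrt elo / 3) (by positivity) fun i x => by
      have h1 : Real.sqrt elo ≤ Real.sqrt (E i) := Real.sqrt_le_sqrt i.2.1.1
      have h2 := one_six_le_root (aStar (Q i) (E i) x)
      have h3 : Real.sqrt elo * (1/6) ≤ c0 (Q i) (E i) x :=
        mul_le_mul h1 h2 (by norm_num) (Real.sqrt_nonneg _)
      linarith
  have BP : UB1 fun i : ι => alphaP (Q i) (E i) :=
    ((Bq.mul Binv).sub (Bc.mul Bhalf)).congr fun i x => by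
      simp [alphaP, div_eq_mul_inv]
  have BM : UB1 fun i : ι => alphaM (Q i) (E i) :=
    ((Bq.mul Binv).neg.sub (Bc.mul Bhalf)).congr fun i x => by
      simp [alphaM, div_eq_mul_inv]
  obtain ⟨sP, C1, h1, bP⟩ := BP
  obtain ⟨sM, C2, h2, bM⟩ := BM
  obtain ⟨-, C3, h3, bv⟩ := Bv
  obtain ⟨-, C4, h4, bv1⟩ := Bv1
  obtain ⟨-, C5, h5, bc⟩ := Bc0
  refine ⟨C1 + C2 + C3 + C4 + C5, by positivity, fun e P τ σ he hg => ?_⟩
  let i : ι := ⟨(e, P), he, τ, σ, hg⟩
  refine ⟨sP i, sM i, contDiff_vel (n := 2) (iter2 hg.hb) (iter2 hg.ha), fun x => ?_⟩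
  obtain ⟨a1, a2, a3⟩ := bP i x
  obtain ⟨b1, b2, b3⟩ := bM i x
  obtain ⟨c1, c2, c3⟩ := bv i x
  obtain ⟨f1, f2, f3⟩ := bv1 i x
  obtain ⟨g1, g2, g3⟩ := bc i x
  refine ⟨⟨?_, ?_, ?_⟩, ⟨?_, ?_, ?_⟩, ⟨?_, ?_, ?_⟩, ⟨?_, ?_⟩, ⟨?_, ?_, ?_⟩⟩ <;>
    simp only [Q, E, i] at * <;> linarith

end Vale.Agent.P229.Test
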