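import Vale.Agent.P229.Test.Bump

/-!
# P229 seat D: the forcing, a row of disjoint bumps
-/

namespace Vale.Agent.P229.Test

open MeasureTheory Set
open scoped ContDiff

variable {n : ℕ}

/-- The row points. -/
def rowPt (slope : ℝ) (t : Fin n → ℝ) (i : Fin n) : P2 := (t i, slope * t i)

lemma continuous_zoom (Λ : ℝ) (p : P2) : Continuous (zoom Λ p) := by
  unfold zoom; fun_prop

lemma d1_zoom {f : P2 → ℝ} (hf : Differentiable ℝ f) (Λ : ℝ) (p x : P2) :
    d1 (fun y => f (zoom Λ p y)) x = Λ * d1 f (zoom Λ p x) ∧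
      d2 (fun y => f (zoom Λ p y)) x = Λ * d2 f (zoom Λ p x) := by
  have e : zoom Λ p = fun y => Λ • (y - p) := by
    funext y; simp [zoom, Prod.smul_def, smul_eq_mul]
  have h : HasFDerivAt (fun y => f (zoom Λ p y))
      ((fderiv ℝ f (zoom Λ p x)).comp (Λ • ContinuousLinearMap.id ℝ P2)) x := by
    rw [e]
    exact (hf _).hasFDerivAt.comp x (((hasFDerivAt_id x).sub_const p).const_smul Λ)
  constructor <;> simp only [d1, d2] <;> rw [h.fderiv] <;> simp [← map_smul]

lemma lap_combB (μ Λ : ℝ) (p : Fin n → P2) (d : Fin n → ℝ) (x : P2) :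
    lap (combB μ Λ p d) x = μ * Λ ^ 2 * ∑ i, d i * lap bump (zoom Λ (p i) x) := by
  have hb : Differentiable ℝ bump := (contDiff_bump (n := 1)).differentiable (by simp)
  have hb1 : Differentiable ℝ (d1 bump) :=
    (contDiff_d1 (n := 1) contDiff_bump).differentiable (by simp)
  have hb2 : Differentiable ℝ (d2 bump) :=
    (contDiff_d2 (n := 1) contDiff_bump).differentiable (by simp)
  have hz : ∀ i, Differentiable ℝ (zoom Λ (p i)) := fun i => by unfold zoom; fun_prop
  have e1 : d1 (combB μ Λ p d) = fun y => ∑ i, μ * Λ * d i * d1 bump (zoom Λ (p i) y) := by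
    funext y
    have : combB μ Λ p d = fun y => ∑ i, μ * d i * bump (zoom Λ (p i) y) := by
      funext y; simp only [combB, zoom, Finset.mul_sum, mul_assoc]
    rw [this, d1, fderiv_fun_sum fun i _ => ((hb.fun_comp (hz i)) y).const_mul _]
    simp only [sum_apply]
    refine Finset.sum_congr rfl fun i _ => ?_
    have := (d1_zoom hb Λ (p i) y).1
    rw [d1] at this
    rw [fderiv_const_mul ((hb.fun_comp (hz i)) y)]
    simp only [smul_apply, smul_eq_mul, this]
    ring
  have e2 : d2 (combB μ Λ p d) = fun y => ∑ i, μ * Λ * d i * d2 bump (zoom Λ (p i) y) := by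
    funext y
    have : combB μ Λ p d = fun y => ∑ i, μ * d i * bump (zoom Λ (p i) y) := by
      funext y; simp only [combB, zoom, Finset.mul_sum, mul_assoc]
    rw [this, d2, fderiv_fun_sum fun i _ => ((hb.fun_comp (hz i)) y).const_mul _]
    simp only [sum_apply]
    refine Finset.sum_congr rfl fun i _ => ?_
    have := (d1_zoom hb Λ (p i) y).2
    rw [d2] at this
    rw [fderiv_const_mul ((hb.fun_comp (hz i)) y)]
    simp only [smul_apply, smul_eq_mul, this]
    ring
  have f1 : d1 (fun y => ∑ i, μ * Λ * d i * d1 bump (zoom Λ (p i) y)) x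
      = ∑ i, μ * Λ ^ 2 * d i * d1 (d1 bump) (zoom Λ (p i) x) := by
    rw [d1, fderiv_fun_sum fun i _ => ((hb1.fun_comp (hz i)) x).const_mul _]
    simp only [sum_apply]
    refine Finset.sum_congr rfl fun i _ => ?_
    have := (d1_zoom hb1 Λ (p i) x).1
    rw [d1] at this
    rw [fderiv_const_mul ((hb1.fun_comp (hz i)) x)]
    simp only [smul_apply, smul_eq_mul, this]
    ring
  have f2 : d2 (fun y => ∑ i, μ * Λ * d i * d2 bump (zoom Λ (p i) y)) x
      = ∑ i, μ * Λ ^ 2 * d i * d2 (d2 bump) (zoom Λ (p i) x) := by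
    rw [d2, fderiv_fun_sum fun i _ => ((hb2.fun_comp (hz i)) x).const_mul _]
    simp only [sum_apply]
    refine Finset.sum_congr rfl fun i _ => ?_
    have := (d1_zoom hb2 Λ (p i) x).2
    rw [d2] at this
    rw [fderiv_const_mul ((hb2.fun_comp (hz i)) x)]
    simp only [smul_apply, smul_eq_mul, this]
    ring
  rw [lap, e1, e2, f1, f2, ← Finset.sum_add_distrib, Finset.mul_sum]
  refine Finset.sum_congr rfl fun i _ => ?_
  rw [lap]; ring

lemma continuous_lap_combB (μ Λ : ℝ) (p : Fin n → P2) (d : Fin n → ℝ) :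
    Continuous (lap (combB μ Λ p d)) := by
  rw [funext (lap_combB μ Λ p d)]
  exact continuous_const.mul (continuous_finsetSum _ fun i _ => continuous_const.mul
    ((continuous_lap contDiff_bump).comp (continuous_zoom Λ (p i))))

variable {Λ slope : ℝ} {t d : Fin n → ℝ}

/-- The closed bumps of a row are disjoint. -/
lemma eq_of_zoom_le (hΛ : 0 < Λ) (hsep : ∀ i k, i ≠ k → 3 ≤ Λ * |t i - t k|) {i k : Fin n} {x : P2}
    (hi : rsq (zoom Λ (rowPt slope t i) x) ≤ 1) (hk : rsq (zoom Λ (rowPt slope t k) x) ≤ 1) :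
    i = k := by
  have h1 := hi
  have h2 := hk
  simp only [rsq, zoom, rowPt] at h1 h2
  have a1 : |Λ * (x.1 - t i)| ≤ 1 := by
    rw [abs_le]; constructor <;> nlinarith [sq_nonneg (Λ * (x.2 - slope * t i))]
  have a2 : |Λ * (x.1 - t k)| ≤ 1 := by
    rw [abs_le]; constructor <;> nlinarith [sq_nonneg (Λ * (x.2 - slope * t k))]
  by_contra h
  have h3 := hsep i k h
  rw [← abs_of_pos hΛ, ← abs_mul] at h3
  have h4 := abs_sub (Λ * (x.1 - t k)) (Λ * (x.1 - t i))
  have e : Λ * (x.1 - t k) - Λ * (x.1 - t i) = Λ * (t i - t k) := by ring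
  rw [e] at h4; linarith

/-- A separated row in an interval of length at most one has at most `Λ` points. -/
lemma card_le (hΛ : 1 ≤ Λ) (hsep : ∀ i k, i ≠ k → 16 ≤ Λ * |t i - t k|)
    (hrange : ∀ i, |t i| ≤ 1/2) : (n : ℝ) ≤ Λ + 2 := by
  have hinj : Function.Injective fun i => ⌊Λ * t i⌋ := by
    intro i k h
    by_contra hne
    have h1 := hsep i k hne
    rw [← abs_of_pos (show (0:ℝ) < Λ by linarith), ← abs_mul, mul_sub] at h1
    have h2 := Int.abs_sub_lt_one_of_floor_eq_floor h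
    linarith
  have hmem : ∀ i, ⌊Λ * t i⌋ ∈ Finset.Icc ⌊-(Λ / 2)⌋ ⌊Λ / 2⌋ := by
    intro i
    obtain ⟨a, b⟩ := abs_le.1 (hrange i)
    exact Finset.mem_Icc.2 ⟨Int.floor_le_floor (by nlinarith), Int.floor_le_floor (by nlinarith)⟩
  have hc := Finset.card_le_card_of_injOn (s := (Finset.univ : Finset (Fin n)))
    (fun i => ⌊Λ * t i⌋) (fun i _ => hmem i) hinj.injOn
  rw [Finset.card_univ, Fintype.card_fin, Int.card_Icc] at hc
  have h1 := Int.floor_le (Λ / 2)
  have h2 := Int.lt_floor_add_one (-(Λ / 2))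
  have h3 : (0:ℤ) ≤ ⌊Λ / 2⌋ + 1 - ⌊-(Λ / 2)⌋ := by
    have : ⌊-(Λ / 2)⌋ ≤ ⌊Λ / 2⌋ := Int.floor_le_floor (by linarith)
    omega
  have h4 : ((n : ℤ) : ℝ) ≤ ((⌊Λ / 2⌋ + 1 - ⌊-(Λ / 2)⌋ : ℤ) : ℝ) := by
    exact_mod_cast (Int.toNat_of_nonneg h3 ▸ (Int.ofNat_le.2 hc) : (n : ℤ) ≤ _)
  push_cast at h4
  linarith

/-- Size of a forcing carried by the balls of a row. -/
lemma integral_sq_forcing_le (hΛ : 0 < Λ) (hsep : ∀ i k, i ≠ k → 3 ≤ Λ * |t i - t k|)
    (hd : ∀ i, d i = -1 ∨ d i = 0 ∨ d i = 1) {f : P2 → ℝ} (hf : Continuous f) {N : ℝ}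
    (hbound : ∀ x, |f x| ≤ N)
    (hzero : ∀ x, (∀ i, d i = 0 ∨ 1 < rsq (zoom Λ (rowPt slope t i) x)) → f x = 0) :
    ∫ x, f x ^ 2 ≤ N ^ 2 * ((∫ z, (Dsk 1).indicator (fun _ => (1:ℝ)) z) / Λ ^ 2) * active d := by
  have hN : 0 ≤ N := (abs_nonneg _).trans (hbound 0)
  set χ : P2 → ℝ := (Dsk 1).indicator (fun _ => (1:ℝ))
  have hχ : Integrable χ :=
    (integrableOn_const (isCompact_dsk 1).measure_lt_top.ne).integrable_indicator
      (isCompact_dsk 1).measurableSet
  have hle : ∀ x, f x ^ 2 ≤ ∑ i, N ^ 2 * d i ^ 2 * χ (zoom Λ (rowPt slope t i) x) := by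
    intro x
    have h0 : ∀ i, 0 ≤ N ^ 2 * d i ^ 2 * χ (zoom Λ (rowPt slope t i) x) := fun i =>
      mul_nonneg (by positivity) (indicator_nonneg (fun _ _ => zero_le_one) _)
    by_cases h : f x = 0
    · rw [h]; simpa using Finset.sum_nonneg fun i _ => h0 i
    · obtain ⟨i, hi⟩ := not_forall.1 fun h' => h (hzero x h')
      rw [not_or, not_lt] at hi
      refine le_trans ?_ (Finset.single_le_sum (fun k _ => h0 k) (Finset.mem_univ i))
      have e1 : d i ^ 2 = 1 := by
        rcases hd i with h1 | h1 | h1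
        · rw [h1]; norm_num
        · exact absurd h1 hi.1
        · rw [h1]; norm_num
      have e2 : χ (zoom Λ (rowPt slope t i) x) = 1 :=
        indicator_of_mem (show zoom Λ (rowPt slope t i) x ∈ Dsk 1 from hi.2) _
      rw [e1, e2, mul_one, mul_one, ← sq_abs]
      gcongr
      exact hbound x
  have hcomp : ∀ i, Integrable fun x => χ (zoom Λ (rowPt slope t i) x) := by
    intro i
    have e : (fun x => χ (zoom Λ (rowPt slope t i) x))
        = fun x => (fun y => χ (Λ • y)) (x - rowPt slope t i) := by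
      funext x; simp [zoom, Prod.smul_def, smul_eq_mul]
    rw [e]
    exact (hχ.comp_smul hΛ.ne').comp_sub_right _
  have hint : ∀ i, Integrable fun x => N ^ 2 * d i ^ 2 * χ (zoom Λ (rowPt slope t i) x) :=
    fun i => (hcomp i).const_mul _
  have h1 := integral_mono_of_nonneg (f := fun x => f x ^ 2)
    (Filter.Eventually.of_forall fun x => sq_nonneg _)
    (integrable_finsetSum Finset.univ fun i _ => hint i) (Filter.Eventually.of_forall hle)
  refine h1.trans (le_of_eq ?_)
  rw [integral_finsetSum _ fun i _ => hint i, active, Finset.mul_sum]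
  refine Finset.sum_congr rfl fun i _ => ?_
  rw [integral_const_mul, integral_zoom hΛ]
  ring

end Vale.Agent.P229.Test
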