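import Vale.Agent.P229.Test.Poincare

/-!
# P229 seat D: the band cut into cells
-/

namespace Vale.Agent.P229.Test

open MeasureTheory Set Finset
open scoped ContDiff

/-- The band box of all integrals of the test function. -/
def bandBox : Set P2 := Set.Icc (-(1/50) : ℝ) (1/50) ×ˢ Set.Icc (-(47/50) : ℝ) (47/50)

lemma isCompact_bandBox : IsCompact bandBox := isCompact_Icc.prod isCompact_Icc

lemma rsq_le_of_mem_bandBox {x : P2} (hx : x ∈ bandBox) : rsq x ≤ 9/10 := by
  obtain ⟨⟨a, b⟩, c, d⟩ := hx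
  unfold rsq; nlinarith

/-- A rectangle is cut into squares. -/
lemma setIntegral_grid {F : P2 → ℝ} (hF : Continuous F) {a c h : ℝ} (hh : 0 < h) (m n : ℕ) :
    ∫ x in Set.Icc a (a + m * h) ×ˢ Set.Icc c (c + n * h), F x
      = ∑ j ∈ range n, ∑ i ∈ range m,
          ∫ x in Set.Icc (a + i * h) (a + i * h + h) ×ˢ Set.Icc (c + j * h) (c + j * h + h), F x := by
  simp_rw [setIntegral_square hF hh]
  have hm : a ≤ a + m * h := by have := Nat.cast_nonneg (α := ℝ) m; nlinarith
  have hn : c ≤ c + n * h := by have := Nat.cast_nonneg (α := ℝ) n; nlinarith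
  have par : ∀ p q : ℝ, Continuous fun y => ∫ t in p..q, F (t, y) := fun p q =>
    intervalIntegral.continuous_parametric_intervalIntegral_of_continuous' (by fun_prop) p q
  have hi : IntegrableOn F (Set.Icc a (a + m * h) ×ˢ Set.Icc c (c + n * h)) (volume.prod volume) := by
    rw [← Measure.volume_eq_prod]
    exact hF.continuousOn.integrableOn_compact (isCompact_Icc.prod isCompact_Icc)
  have e0 : ∫ x in Set.Icc a (a + m * h) ×ˢ Set.Icc c (c + n * h), F x
      = ∫ y in c..(c + n * h), ∫ t in a..(a + m * h), F (t, y) := by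
    rw [Measure.volume_eq_prod, ← setIntegral_prod_swap,
      setIntegral_prod (fun z : ℝ × ℝ => F z.swap) hi.swap,
      intervalIntegral.integral_of_le hn, integral_Icc_eq_integral_Ioc]
    refine setIntegral_congr_fun measurableSet_Ioc fun y _ => ?_
    rw [intervalIntegral.integral_of_le hm, integral_Icc_eq_integral_Ioc]
    rfl
  rw [e0]
  have hx : ∀ y, ∫ t in a..(a + m * h), F (t, y)
      = ∑ i ∈ range m, ∫ t in (a + i * h)..(a + i * h + h), F (t, y) := by
    intro y
    have := intervalIntegral.sum_integral_adjacent_intervals (μ := volume) (f := fun t => F (t, y))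
      (a := fun i : ℕ => a + i * h) (n := m)
      (fun k _ => Continuous.intervalIntegrable (by fun_prop) _ _)
    simp only [Nat.cast_zero, zero_mul, add_zero, Nat.cast_succ] at this
    rw [← this]
    refine Finset.sum_congr rfl fun i _ => ?_
    rw [show a + ((i:ℝ) + 1) * h = a + i * h + h by ring]
  have hy := intervalIntegral.sum_integral_adjacent_intervals (μ := volume)
    (f := fun y => ∫ t in a..(a + m * h), F (t, y)) (a := fun j : ℕ => c + j * h) (n := n)
    (fun k _ => (par _ _).intervalIntegrable _ _)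
  simp only [Nat.cast_zero, zero_mul, add_zero, Nat.cast_succ] at hy
  rw [← hy]
  refine Finset.sum_congr rfl fun j _ => ?_
  rw [show c + ((j:ℝ) + 1) * h = c + j * h + h by ring,
    intervalIntegral.integral_congr (fun y _ => hx y),
    intervalIntegral.integral_finsetSum fun i _ => (par _ _).intervalIntegrable _ _]

/-- Poincaré on the band with small cell integrals. -/
theorem band_poincare {M : ℕ} (hM : 0 < M) {w : P2 → ℝ} (hw : ContDiff ℝ 1 w) {δ : ℝ}
    (hcell : ∀ k : ℤ × ℤ, cell (1 / (50 * (M : ℝ))) k ⊆ Dsk (3/2) →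
      |∫ x in cell (1 / (50 * (M : ℝ))) k, w x| ≤ δ) :
    ∫ x in bandBox, w x ^ 2 ≤
      4 * (1 / (50 * (M : ℝ))) ^ 2 * (∫ x in bandBox, (d1 w x ^ 2 + d2 w x ^ 2))
        + 4 / (1 / (50 * (M : ℝ))) ^ 2 * (188 * (M : ℝ) ^ 2) * δ ^ 2 := by
  set h := 1 / (50 * (M : ℝ)) with hh0
  have hMR : (0 : ℝ) < M := Nat.cast_pos.2 hM
  have hh : 0 < h := by positivity
  have e1 : bandBox = Set.Icc (-(1/50) : ℝ) (-(1/50) + (2 * M : ℕ) * h) ×ˢ
      Set.Icc (-(47/50) : ℝ) (-(47/50) + (94 * M : ℕ) * h) := by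
    simp only [bandBox, hh0]; push_cast
    congr 2 <;> field_simp <;> ring
  have hsq : Continuous fun x => w x ^ 2 := hw.continuous.pow 2
  have hD : Continuous fun x => d1 w x ^ 2 + d2 w x ^ 2 :=
    ((contDiff_d1 (n := 0) hw).continuous.pow 2).add ((contDiff_d2 (n := 0) hw).continuous.pow 2)
  rw [e1, setIntegral_grid hsq hh, setIntegral_grid hD hh]
  set S : ℕ → ℕ → Set P2 := fun i j =>
    Set.Icc (-(1/50) + (i:ℝ) * h) (-(1/50) + (i:ℝ) * h + h) ×ˢ
      Set.Icc (-(47/50) + (j:ℝ) * h) (-(47/50) + (j:ℝ) * h + h)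
  have key : ∀ j ∈ range (94 * M), ∀ i ∈ range (2 * M), ∫ x in S i j, w x ^ 2 ≤
      4 * h ^ 2 * (∫ x in S i j, (d1 w x ^ 2 + d2 w x ^ 2)) + 4 / h ^ 2 * δ ^ 2 := by
    intro j hj i hi
    refine (poincare_square hw hh).trans (add_le_add le_rfl (mul_le_mul_of_nonneg_left ?_ (by positivity)))
    have hc : S i j = cell h ((i:ℤ) - M, (j:ℤ) - 47 * M) := by
      simp only [S, cell, hh0]; push_cast
      congr 2 <;> field_simp <;> ring
    have hi' : (i:ℝ) + 1 ≤ 2 * M := by exact_mod_cast (Finset.mem_range.1 hi)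
    have hj' : (j:ℝ) + 1 ≤ 94 * M := by exact_mod_cast (Finset.mem_range.1 hj)
    have hsub : S i j ⊆ Dsk (3/2) := by
      intro x hx
      have hb : x ∈ bandBox := by
        obtain ⟨⟨a, b⟩, c, d⟩ := hx
        have i0 := Nat.cast_nonneg (α := ℝ) i
        have j0 := Nat.cast_nonneg (α := ℝ) j
        have t1 : ((i:ℝ) + 1) * h ≤ 2/50 := by
          rw [hh0, mul_one_div, div_le_iff₀ (by positivity)]; linarith
        have t2 : ((j:ℝ) + 1) * h ≤ 94/50 := by
          rw [hh0, mul_one_div, div_le_iff₀ (by positivity)]; linarith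
        exact ⟨⟨by nlinarith, by nlinarith⟩, by nlinarith, by nlinarith⟩
      show rsq x ≤ 3/2
      linarith [rsq_le_of_mem_bandBox hb]
    have hI := hcell _ (hc ▸ hsub)
    rw [← hc] at hI
    have h2 := pow_le_pow_left₀ (abs_nonneg _) hI 2
    rwa [sq_abs] at h2
  refine (Finset.sum_le_sum fun j hj => Finset.sum_le_sum fun i hi => key j hj i hi).trans
    (le_of_eq ?_)
  simp only [Finset.sum_add_distrib, Finset.sum_const, Finset.card_range, nsmul_eq_mul,
    ← Finset.mul_sum, S]
  push_cast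
  ring

end Vale.Agent.P229.Test
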