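import Vale.Agent.P229.Test.Setup

/-!
# P229 seat D: the main term of the pairing
-/

namespace Vale.Agent.P229.Test

open MeasureTheory Set
open scoped ContDiff

/-- Bound for `|lap bump|`. -/
lemma exists_lap_bump_bound : ∃ L₀ : ℝ, 0 ≤ L₀ ∧ ∀ z, |lap bump z| ≤ L₀ := by
  obtain ⟨C, hC⟩ := (continuous_lap contDiff_bump).bounded_above_of_compact_support
    hasCompactSupport_lap_bump
  exact ⟨|C|, abs_nonneg _, fun z => (hC z).trans (le_abs_self _)⟩

/-- The area constant. -/
noncomputable def area : ℝ := ∫ z, (Dsk 1).indicator (fun _ => (1:ℝ)) z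

lemma area_nonneg : 0 ≤ area :=
  integral_nonneg fun z => indicator_nonneg (fun _ _ => zero_le_one) z

variable {n : ℕ} {P : Coef} {T τ elo e K σ CA Λ slope : ℝ} {t d : Fin n → ℝ}

namespace Setup

variable (S : Setup P T τ elo e K σ CA Λ slope t d)

include S

lemma hsep3 (i k : Fin n) (h : i ≠ k) : 3 ≤ Λ * |t i - t k| := by
  have h1 := S.hsep i k h
  rw [div_le_iff₀ S.hΛ0] at h1
  nlinarith [S.hT]

/-- Lower bound for `∫ ρ H f`. -/
theorem pairing_lower {μ : ℝ} (hμ : 0 ≤ μ) {q g : P2 → ℝ} (hq : ContDiff ℝ 1 q)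
    (hqb : ∀ x ∈ Dsk (3/2), 1 / K ≤ q x ∧ q x ≤ K ∧ |d1 q x| ≤ K ∧ |d2 q x| ≤ K)
    (hg : Continuous g) (hgb : ∀ x, |g x| ≤ K * μ * Λ)
    (hgz : ∀ x, (∀ i, d i = 0 ∨ 1 < rsq (zoom Λ (rowPt slope t i) x)) → g x = 0)
    (hΛCA : 4 * CA ≤ Λ) :
    μ * active d * (1 / K * (18/25) / CA * (∫ z, bump z)
        - (5 * K * CA ^ 2 * (32 * CA + 16) * (∫ z, |lap bump z|) + 9 * K * CA * area) / Λ) ≤
      ∫ x, d1 (lab P e) x * (testH P e Λ (centre P e slope t) d x *
        (q x * lap (combB μ Λ (rowPt slope t) d) x + g x)) := by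
  set ρ := d1 (lab P e)
  set c := centre P e slope t
  set H := testH P e Λ c d
  set Φ : P2 → ℝ := fun x => q x * (ρ x * Test.amp P e x)
  have hρ1 : ContDiff ℝ 1 ρ := contDiff_d1 (n := 1) S.amp.labC2
  have hΦ : ContDiff ℝ 1 Φ := hq.mul (hρ1.mul S.amp.ampC1)
  set IB := ∫ z, bump z
  set IL := ∫ z, |lap bump z|
  have hIB : 0 < IB := integral_bump_pos
  have hΛ := S.hΛ0
  have hK := S.hK
  have hCA := S.hCA
  -- the point-wise decomposition
  set M : Fin n → P2 → ℝ := fun i x => μ * Λ ^ 2 * d i ^ 2 *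
    (lap bump (zoom Λ (rowPt slope t i) x) * (Φ x * gProf (Λ * (lab P e x - c i))))
  have hmain : ∀ x, ρ x * (H x * (q x * lap (combB μ Λ (rowPt slope t) d) x + g x))
      = (∑ i, M i x) + ρ x * (H x * g x) := by
    intro x
    rw [lap_combB, mul_add, mul_add, Finset.mul_sum, Finset.mul_sum, Finset.mul_sum, Finset.mul_sum]
    congr 1
    refine Finset.sum_congr rfl fun i _ => ?_
    rcases le_or_gt (rsq (zoom Λ (rowPt slope t i) x)) 1 with hz | hz
    · have hx := mem_closedBall_of_zoom hΛ hz
      obtain ⟨-, -, -, -, hχ⟩ := S.ball_facts i hx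
      have hp := packet_eq_single (d := d) hΛ S.centre_sep i (S.ball_packet i hx)
      simp only [M, H, testH, hχ, Φ]
      rw [hp]; ring
    · simp only [M, lap_bump_eq_zero hz]; ring
  have cM : ∀ i, Continuous (M i) := fun i => continuous_const.mul
    (((continuous_lap contDiff_bump).comp (continuous_zoom _ _)).mul (hΦ.continuous.mul
      ((contDiff_gProf (n := 0)).continuous.comp
        (continuous_const.mul (S.amp.labC2.continuous.sub continuous_const)))))
  have sM : ∀ i, HasCompactSupport (M i) := by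
    intro i
    refine HasCompactSupport.intro (isCompact_closedBall (rowPt slope t i) (1 / Λ)) fun x hx => ?_
    have hz : 1 < rsq (zoom Λ (rowPt slope t i) x) := by
      by_contra h; exact hx (mem_closedBall_of_zoom hΛ (not_lt.1 h))
    simp only [M, lap_bump_eq_zero hz]; ring
  have iM : ∀ i, Integrable (M i) := fun i => (cM i).integrable_of_hasCompactSupport (sM i)
  have cH : Continuous H := (contDiff_testH S.hg S.amp).continuous
  have cg : Continuous fun x => ρ x * (H x * g x) := hρ1.continuous.mul (cH.mul hg)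
  have ig : Integrable fun x => ρ x * (H x * g x) :=
    cg.integrable_of_hasCompactSupport (S.hasCompactSupport_testH.mul_right.mul_left)
  rw [integral_congr_ae (Filter.Eventually.of_forall hmain),
    integral_add (integrable_finsetSum _ fun i _ => iM i) ig, integral_finsetSum _ fun i _ => iM i]
  -- one bump
  set m₀ := 1 / K * (18/25) / CA * IB - 5 * K * CA ^ 2 * (32 * CA + 16) * IL / Λ
  have hone : ∀ i, μ * d i ^ 2 * m₀ ≤ ∫ x, M i x := by
    intro i
    simp only [M]
    rw [integral_const_mul]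
    set p := rowPt slope t i
    have hp : p ∈ Metric.closedBall p (1 / Λ) := Metric.mem_closedBall_self (by positivity)
    obtain ⟨hy, hpD, -⟩ := S.ball_facts i hp
    have hρp := S.amp.rho_mem p hy
    have hvp : |vel P e p| ≤ 1/2 := (S.speed_bound p).2.trans (by linarith [S.hτ, S.sqrt_small])
    have e2 := S.amp.lab_eqn p
    rw [lOp, sub_eq_zero] at e2
    have h1 : |d1 (lab P e) p| + |d2 (lab P e) p| ≤ 7/4 := by
      rw [e2, abs_mul, abs_of_pos (by linarith [hρp.1] : 0 < d1 (lab P e) p)]
      nlinarith [hρp.1, hρp.2, abs_nonneg (vel P e p)]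
    have bΦ : ∀ x ∈ Metric.closedBall p (1 / Λ),
        |Φ x| ≤ 5 * K * CA ^ 2 ∧ |d1 Φ x| ≤ 5 * K * CA ^ 2 ∧ |d2 Φ x| ≤ 5 * K * CA ^ 2 := by
      intro x hx
      obtain ⟨hy, hD, -⟩ := S.ball_facts i hx
      obtain ⟨q0, q1, q2, q3⟩ := hqb x hD
      have hq0 : |q x| ≤ K := by
        rw [abs_of_pos (lt_of_lt_of_le (by positivity) q0)]; exact q1
      obtain ⟨r0, r1⟩ := S.amp.rho_mem x hy
      have hr : |ρ x| ≤ 2 := by
        show |d1 (lab P e) x| ≤ 2
        rw [abs_of_pos (by linarith)]; linarith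
      obtain ⟨a0, a1⟩ := S.amp.amp_mem x hy
      have ha : |Test.amp P e x| ≤ CA := by rw [abs_of_pos (by unfold Test.amp; exact Real.exp_pos _)]; exact a1
      obtain ⟨dr1, dr2⟩ := S.amp.rho_d x hy
      obtain ⟨da1, da2⟩ := S.amp.amp_d x hy
      have hk : 2 * CA ≤ 5 * CA ^ 2 := by nlinarith
      have hd : |ρ x * Test.amp P e x| ≤ 2 * CA := by
        rw [abs_mul]; exact mul_le_mul hr ha (abs_nonneg _) (by norm_num)
      have drA : DifferentiableAt ℝ ρ x := hρ1.differentiable one_ne_zero x
      have daA : DifferentiableAt ℝ (Test.amp P e) x := S.amp.ampC1.differentiable one_ne_zero x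
      have dqA : DifferentiableAt ℝ q x := hq.differentiable one_ne_zero x
      refine ⟨?_, ?_, ?_⟩
      · simp only [Φ]; rw [abs_mul]
        refine (mul_le_mul hq0 hd (abs_nonneg _) (by linarith)).trans ?_
        nlinarith
      · simp only [Φ]
        rw [d1_mul dqA (drA.fun_mul daA), d1_mul drA daA]
        refine (abs_add_le _ _).trans ?_
        rw [abs_mul, abs_mul (q x)]
        have u1 : |d1 ρ x * Test.amp P e x + ρ x * d1 (Test.amp P e) x| ≤ CA * CA + 2 * CA := by
          refine (abs_add_le _ _).trans ?_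
          rw [abs_mul, abs_mul]
          exact add_le_add (mul_le_mul dr1 ha (abs_nonneg _) (by linarith))
            (mul_le_mul hr da1 (abs_nonneg _) (by norm_num))
        have u2 := mul_le_mul q2 hd (abs_nonneg _) (by linarith)
        have u3 := mul_le_mul hq0 u1 (abs_nonneg _) (by linarith)
        have u4 : K * CA * 1 ≤ K * CA * CA := mul_le_mul_of_nonneg_left hCA (by positivity)
        linarith
      · simp only [Φ]
        rw [d2_mul dqA (drA.fun_mul daA), d2_mul drA daA]
        refine (abs_add_le _ _).trans ?_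
        rw [abs_mul, abs_mul (q x)]
        have u1 : |d2 ρ x * Test.amp P e x + ρ x * d2 (Test.amp P e) x| ≤ CA * CA + 2 * CA := by
          refine (abs_add_le _ _).trans ?_
          rw [abs_mul, abs_mul]
          exact add_le_add (mul_le_mul dr2 ha (abs_nonneg _) (by linarith))
            (mul_le_mul hr da2 (abs_nonneg _) (by norm_num))
        have u2 := mul_le_mul q3 hd (abs_nonneg _) (by linarith)
        have u3 := mul_le_mul hq0 u1 (abs_nonneg _) (by linarith)
        have u4 : K * CA * 1 ≤ K * CA * CA := mul_le_mul_of_nonneg_left hCA (by positivity)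
        linarith
    have h := bump_pairing S.amp.labC2 hΦ S.hΛ (p := p) (S := CA) (F := 5 * K * CA ^ 2)
      (by linarith) hΛCA h1 (bΦ p hp).1
      (fun x hx => (S.amp.rho_d x (S.ball_facts i hx).1).1)
      (fun x hx => (S.amp.rho_d x (S.ball_facts i hx).1).2)
      (fun x hx => S.amp.lab_d22 x (S.ball_facts i hx).1)
      (fun x hx => (bΦ x hx).2.1) (fun x hx => (bΦ x hx).2.2)
    have h' := mul_le_mul_of_nonneg_left h (by positivity : (0:ℝ) ≤ μ * Λ ^ 2 * d i ^ 2)
    refine le_trans ?_ h'
    have e3 : μ * Λ ^ 2 * d i ^ 2 * ((Φ p * (d1 (lab P e) p ^ 2 + d2 (lab P e) p ^ 2) * IB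
        - 5 * K * CA ^ 2 * (32 * CA + 16) / Λ * IL) / Λ ^ 2)
        = μ * d i ^ 2 * (Φ p * (d1 (lab P e) p ^ 2 + d2 (lab P e) p ^ 2) * IB
          - 5 * K * CA ^ 2 * (32 * CA + 16) * IL / Λ) := by field_simp
    rw [e3]
    refine mul_le_mul_of_nonneg_left ?_ (by positivity)
    refine sub_le_sub ?_ le_rfl
    refine mul_le_mul_of_nonneg_right ?_ hIB.le
    obtain ⟨q0, -⟩ := hqb p hpD
    obtain ⟨a0, -⟩ := S.amp.amp_mem p hy
    have hsq : 4/5 ≤ d1 (lab P e) p ^ 2 + d2 (lab P e) p ^ 2 := by
      nlinarith [hρp.1, sq_nonneg (d2 (lab P e) p)]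
    have hΦp : 1 / K * (9/10) / CA ≤ Φ p := by
      have := mul_le_mul q0 (mul_le_mul hρp.1 a0 (by positivity) (by linarith [hρp.1]))
        (by positivity) (le_trans (by positivity) q0)
      refine le_trans (le_of_eq ?_) this
      ring
    have := mul_le_mul hΦp hsq (by norm_num) (le_trans (by positivity) hΦp)
    refine le_trans (le_of_eq ?_) this
    ring
  -- the lower order forcing
  set N := K * μ * Λ * (9 * CA)
  have hN : 0 ≤ N := by positivity
  have hHg : ∀ x, |ρ x * (H x * g x)| ≤ N := by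
    intro x
    by_cases h : H x = 0
    · rw [h]; simpa using hN
    · obtain ⟨-, hy, -⟩ := S.testH_support h
      obtain ⟨r0, r1⟩ := S.amp.rho_mem x hy
      obtain ⟨-, a1⟩ := S.amp.amp_mem x hy
      have hr : |ρ x| ≤ 11/10 := by
        show |d1 (lab P e) x| ≤ 11/10
        rw [abs_of_pos (by linarith)]; linarith
      have hG : |packet (lab P e) Λ c d x| ≤ 9/2 := by
        by_cases h0 : packet (lab P e) Λ c d x = 0
        · rw [h0]; norm_num
        · obtain ⟨i, -, hi⟩ := exists_of_packet_ne_zero h0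
          rw [packet_eq_single hΛ S.centre_sep i hi, abs_mul]
          have hdi : |d i| ≤ 1 := by rcases S.hd i with h | h | h <;> rw [h] <;> norm_num
          exact (mul_le_mul hdi (abs_gProf_le _) (abs_nonneg _) zero_le_one).trans (by norm_num)
      have hH : |H x| ≤ 9/2 * CA := by
        simp only [H, testH]
        rw [abs_mul, abs_mul]
        have hc1 : |chiB P e x| ≤ 1 := by
          unfold chiB; rw [abs_of_nonneg (chiS_mem _).1]; exact (chiS_mem _).2
        have ha : |Test.amp P e x| ≤ CA := by rw [abs_of_pos (by unfold Test.amp; exact Real.exp_pos _)]; exact a1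
        calc |chiB P e x| * (|packet (lab P e) Λ c d x| * |Test.amp P e x|)
            ≤ 1 * (9/2 * CA) := by gcongr
          _ = 9/2 * CA := one_mul _
      rw [abs_mul, abs_mul]
      calc |ρ x| * (|H x| * |g x|) ≤ 11/10 * (9/2 * CA * (K * μ * Λ)) := by
            gcongr; exact hgb x
        _ ≤ N := by
            have hp : 0 ≤ K * μ * Λ * CA := by positivity
            simp only [N]; nlinarith
  have hF := integral_sq_forcing_le (f := fun x => Real.sqrt |ρ x * (H x * g x)|) (N := Real.sqrt N)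
    hΛ S.hsep3 S.hd cg.abs.sqrt (fun x => by
      rw [abs_of_nonneg (Real.sqrt_nonneg _)]; exact Real.sqrt_le_sqrt (hHg x))
    (fun x hx => by rw [hgz x hx]; simp)
  simp only [Real.sq_sqrt (abs_nonneg _), Real.sq_sqrt hN] at hF
  have hgI := abs_integral_le_integral_abs (μ := (volume : Measure P2))
    (f := fun x => ρ x * (H x * g x))
  have hsum := Finset.sum_le_sum (s := Finset.univ) fun i _ => hone i
  rw [← Finset.sum_mul, ← Finset.mul_sum] at hsum
  have e4 : N * (area / Λ ^ 2) * active d = μ * active d * (9 * K * CA * area / Λ) := by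
    simp only [N]; field_simp
  have hgn := neg_abs_le (∫ x, ρ x * (H x * g x))
  have e5 : μ * active d * (1 / K * (18/25) / CA * IB
      - (5 * K * CA ^ 2 * (32 * CA + 16) * IL + 9 * K * CA * area) / Λ)
      = μ * active d * m₀ - μ * active d * (9 * K * CA * area / Λ) := by
    simp only [m₀]; ring
  rw [e5, ← e4]
  simp only [active, area] at hsum hF ⊢
  linarith

end Setup

end Vale.Agent.P229.Test
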