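import Vale.Agent.P229.Test.Setup
import Vale.Agent.P229.EnergyDefs

/-!
# P229 seat D: the error terms of the pairing
-/

namespace Vale.Agent.P229.Test

open MeasureTheory Set
open scoped ContDiff

variable {n : ℕ} {P : Coef} {T τ elo e K σ CA Λ slope : ℝ} {t d : Fin n → ℝ}

lemma continuous_en {w : P2 → ℝ} (hb : Continuous P.b) (hw : ContDiff ℝ 1 w) :
    Continuous (en e P w) :=
  (((contDiff_d2 (n := 0) hw).continuous.sub (hb.mul (contDiff_d1 (n := 0) hw).continuous)).pow
    2).add (continuous_const.mul ((contDiff_d1 (n := 0) hw).continuous.pow 2))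

lemma continuous_lOp {F : P2 → ℝ} (hv : Continuous (vel P e)) (hF : ContDiff ℝ 1 F) :
    Continuous (lOp P e F) :=
  (contDiff_d2 (n := 0) hF).continuous.sub (hv.mul (contDiff_d1 (n := 0) hF).continuous)

lemma integral_eq_setIntegral_bandBox {F : P2 → ℝ} (h : ∀ x, x ∉ bandBox → F x = 0) :
    ∫ x, F x = ∫ x in bandBox, F x :=
  (setIntegral_eq_integral_of_forall_compl_eq_zero h).symm

namespace Setup

variable (S : Setup P T τ elo e K σ CA Λ slope t d)

include S

lemma integral_packet_le :
    ∫ x in bandBox, packet (lab P e) Λ (centre P e slope t) d x ^ 2 ≤ 300 / Λ * active d := by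
  have hΛ := S.hΛ0
  have hc : Continuous fun x => packet (lab P e) Λ (centre P e slope t) d x ^ 2 :=
    (contDiff_packet S.amp).continuous.pow 2
  have hsub : bandBox ⊆ box (1/50) := Set.prod_mono (subset_refl _)
    (Set.Icc_subset_Icc (by norm_num) (by norm_num))
  refine (setIntegral_mono_set (hc.continuousOn.integrableOn_compact (isCompact_box _))
    (Filter.Eventually.of_forall fun x => sq_nonneg _) hsub.eventuallyLE).trans ?_
  refine (integral_packet_sq_le (d := d) S.amp.labC2.continuous hΛ S.centre_sep (m := 9/10)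
    (by norm_num) fun y hy a _ b _ => S.lab_mono (abs_le.2 ⟨hy.1, hy.2⟩) a b).trans ?_
  refine mul_le_mul_of_nonneg_right ?_ (Finset.sum_nonneg fun i _ => sq_nonneg _)
  rw [div_le_div_iff₀ (by positivity) hΛ]
  linarith

/-- The zeroth order error. -/
theorem upper_low {Cχ : ℝ} (hCχ : ∀ s, |deriv chiS s| ≤ Cχ) {w : P2 → ℝ}
    (hw : ContDiff ℝ 1 w) :
    |∫ x, d1 (lab P e) x * (w x * (packet (lab P e) Λ (centre P e slope t) d x * qTerm P e x))| ≤
      2 * (CA ^ 2 * (1 + 2 * Cχ + CA)) *
        (Real.sqrt (∫ x in bandBox, w x ^ 2) * Real.sqrt (300 / Λ * active d)) := by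
  set G := packet (lab P e) Λ (centre P e slope t) d
  set ρ := d1 (lab P e)
  set Q := CA ^ 2 * (1 + 2 * Cχ + CA)
  have hCA := S.hCA
  have hC0 : 0 ≤ Cχ := (abs_nonneg _).trans (hCχ 0)
  have hQ : 0 ≤ Q := by positivity
  have cG : Continuous G := (contDiff_packet S.amp).continuous
  have zero : ∀ x, x ∉ bandBox → ρ x * (w x * (G x * qTerm P e x)) = 0 := by
    intro x hx
    by_contra h
    have h1 := right_ne_zero_of_mul (right_ne_zero_of_mul h)
    have hG := left_ne_zero_of_mul h1
    apply hx
    by_cases hc : chiB P e x = 0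
    · have hl : lOp P e (chiB P e) x ≠ 0 := by
        intro hl; exact right_ne_zero_of_mul h1 (by simp [qTerm, hc, hl])
      exact (S.support hG (S.lchi_support hl).2).1
    · exact (S.support hG (S.chi_support hc)).1
  have bound : ∀ x ∈ bandBox, |ρ x * (w x * (G x * qTerm P e x))| ≤ 2 * Q * (|w x| * |G x|) := by
    intro x hx
    have hy : |x.2| ≤ 1 := abs_le.2 ⟨by linarith [hx.2.1], by linarith [hx.2.2]⟩
    have hD : x ∈ Dsk (3/2) := by
      show rsq x ≤ 3/2
      linarith [rsq_le_of_mem_bandBox hx]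
    obtain ⟨r0, r1⟩ := S.amp.rho_mem x hy
    have hr : |ρ x| ≤ 2 := by
      show |d1 (lab P e) x| ≤ 2
      rw [abs_of_pos (by linarith)]; linarith
    obtain ⟨-, a1⟩ := S.amp.amp_mem x hy
    have ha : |Test.amp P e x| ≤ CA := by
      rw [abs_of_pos (by unfold Test.amp; exact Real.exp_pos _)]; exact a1
    have hc1 : |chiB P e x| ≤ 1 := by
      unfold chiB; rw [abs_of_nonneg (chiS_mem _).1]; exact (chiS_mem _).2
    have hl : |lOp P e (chiB P e) x| ≤ 2 * Cχ := by
      rw [lOp_chiB S.hg, abs_mul]
      have hs := (labelOK_of_good S.hg (by linarith [S.hτ])).s1 x hD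
      have hr0 : 0 < Real.sqrt e := Real.sqrt_pos.2 S.he
      have h2 : |-(c0 P e x * d1 (label P.b) x) / Real.sqrt e| ≤ 2 := by
        rw [abs_div, abs_neg, abs_mul, abs_of_pos hr0, div_le_iff₀ hr0, c0, abs_mul,
          abs_of_pos hr0, abs_of_pos (root_pos _)]
        obtain ⟨p, q⟩ := abs_le.1 hs
        have : |d1 (label P.b) x| ≤ 5/4 := abs_le.2 ⟨by linarith [S.hτ], by linarith [S.hτ]⟩
        calc Real.sqrt e * root (aStar P e x) * |d1 (label P.b) x|
            ≤ Real.sqrt e * (3/2) * (5/4) := by gcongr; exact root_le _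
          _ ≤ 2 * Real.sqrt e := by linarith
      calc _ ≤ Cχ * 2 := mul_le_mul (hCχ _) h2 (abs_nonneg _) hC0
        _ = 2 * Cχ := by ring
    have hq : |qTerm P e x| ≤ Q := by
      unfold qTerm
      refine (abs_sub _ _).trans ((add_le_add (abs_add_le _ _) le_rfl).trans ?_)
      simp only [abs_mul]
      have u1 : |lOp P e (alphaM P e) x| * |chiB P e x| * |Test.amp P e x| ≤ CA * 1 * CA :=
        mul_le_mul (mul_le_mul (S.amp.laM_le x) hc1 (abs_nonneg _) (by linarith)) ha (abs_nonneg _)
          (by positivity)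
      have u2 : |alphaM P e x| * |lOp P e (chiB P e) x| * |Test.amp P e x| ≤ CA * (2 * Cχ) * CA :=
        mul_le_mul (mul_le_mul (S.amp.aM_le x) hl (abs_nonneg _) (by linarith)) ha (abs_nonneg _)
          (by positivity)
      have u3 : |alphaM P e x| * |chiB P e x| * |alphaP P e x| * |Test.amp P e x|
          ≤ CA * 1 * CA * CA :=
        mul_le_mul (mul_le_mul (mul_le_mul (S.amp.aM_le x) hc1 (abs_nonneg _) (by linarith))
          (S.amp.aP_le x) (abs_nonneg _) (by positivity)) ha (abs_nonneg _) (by positivity)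
      refine (add_le_add (add_le_add u1 u2) u3).trans (le_of_eq ?_)
      simp only [Q]; ring
    rw [abs_mul, abs_mul, abs_mul]
    calc |ρ x| * (|w x| * (|G x| * |qTerm P e x|)) ≤ 2 * (|w x| * (|G x| * Q)) := by gcongr
      _ = 2 * Q * (|w x| * |G x|) := by ring
  rw [integral_eq_setIntegral_bandBox zero]
  have cw := hw.continuous
  have iwG : IntegrableOn (fun x => |w x| * |G x|) bandBox :=
    (cw.abs.mul cG.abs).continuousOn.integrableOn_compact isCompact_bandBox
  refine abs_integral_le_integral_abs.trans ?_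
  refine (integral_mono_of_nonneg (Filter.Eventually.of_forall fun x => abs_nonneg _)
    (iwG.const_mul (2 * Q)) ((ae_restrict_iff' isCompact_bandBox.measurableSet).2
      (Filter.Eventually.of_forall bound))).trans ?_
  rw [integral_const_mul]
  refine mul_le_mul_of_nonneg_left ((setIntegral_abs_mul_le isCompact_bandBox.measurableSet
    ((cw.pow 2).continuousOn.integrableOn_compact isCompact_bandBox)
    ((cG.pow 2).continuousOn.integrableOn_compact isCompact_bandBox) iwG).trans ?_) (by positivity)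
  exact mul_le_mul_of_nonneg_left (Real.sqrt_le_sqrt S.integral_packet_le) (Real.sqrt_nonneg _)

/-- The edge error. -/
theorem upper_edge {Cχ : ℝ} (hCχ : ∀ s, |deriv chiS s| ≤ Cχ) {w : P2 → ℝ}
    (hw : ContDiff ℝ 2 w) :
    |∫ x, d1 (lab P e) x * (Rplus P e w x * (packet (lab P e) Λ (centre P e slope t) d x *
        (lOp P e (chiB P e) x * Test.amp P e x)))| ≤
      4 * Cχ * CA *
        (Real.sqrt (5 * ∫ x in edgeSet e (label P.b), en e P w x) *
          Real.sqrt (300 / Λ * active d)) := by
  set G := packet (lab P e) Λ (centre P e slope t) d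
  set ρ := d1 (lab P e)
  have hb1 : ContDiff ℝ 1 P.b := S.hg.hb.of_le (by norm_cast)
  have cG : Continuous G := (contDiff_packet S.amp).continuous
  have hS : Continuous (label P.b) :=
    ((speed_of_good S.hg).contDiff_label (n := 2) (contDiff_two_of_good S.hg)).continuous
  set E := edgeSet e (label P.b)
  have hEclosed : IsClosed E := ((isCompact_dsk 1).isClosed.inter
    (isClosed_le continuous_const hS.abs))
  have hE : IsCompact E := (isCompact_dsk 1).of_isClosed_subset hEclosed fun x hx => hx.1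
  set B := bandBox ∩ E
  have hB : IsCompact B := isCompact_bandBox.inter_right hEclosed
  have hr0 : 0 < Real.sqrt e := Real.sqrt_pos.2 S.he
  have mem : ∀ x, ρ x * (Rplus P e w x * (G x * (lOp P e (chiB P e) x * Test.amp P e x))) ≠ 0 →
      x ∈ B := by
    intro x h
    have h1 := right_ne_zero_of_mul (right_ne_zero_of_mul h)
    obtain ⟨hlo, hhi⟩ := S.lchi_support (left_ne_zero_of_mul (right_ne_zero_of_mul h1))
    obtain ⟨hb, -, hr, -⟩ := S.support (left_ne_zero_of_mul h1) hhi
    refine ⟨hb, show rsq x ≤ 1 by linarith, ?_⟩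
    rw [abs_div, abs_of_pos hr0, le_div_iff₀ hr0] at hlo
    linarith
  have eqI : ∫ x, ρ x * (Rplus P e w x * (G x * (lOp P e (chiB P e) x * Test.amp P e x)))
      = ∫ x in B, ρ x * (Rplus P e w x * (G x * (lOp P e (chiB P e) x * Test.amp P e x))) :=
    (setIntegral_eq_integral_of_forall_compl_eq_zero fun x hx => by
      by_contra h; exact hx (mem x h)).symm
  have hC0 : 0 ≤ Cχ := (abs_nonneg _).trans (hCχ 0)
  have hCA := S.hCA
  have bound : ∀ x ∈ B, |ρ x * (Rplus P e w x * (G x * (lOp P e (chiB P e) x * Test.amp P e x)))|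
      ≤ 4 * Cχ * CA * (|Rplus P e w x| * |G x|) := by
    intro x hx
    have hy : |x.2| ≤ 1 := abs_le.2 ⟨by linarith [hx.1.2.1], by linarith [hx.1.2.2]⟩
    have hD : x ∈ Dsk (3/2) := by
      show rsq x ≤ 3/2
      linarith [rsq_le_of_mem_bandBox hx.1]
    obtain ⟨r0, r1⟩ := S.amp.rho_mem x hy
    have hr : |ρ x| ≤ 11/10 := by
      show |d1 (lab P e) x| ≤ 11/10
      rw [abs_of_pos (by linarith)]; linarith
    obtain ⟨-, a1⟩ := S.amp.amp_mem x hy
    have ha : |Test.amp P e x| ≤ CA := by
      rw [abs_of_pos (by unfold Test.amp; exact Real.exp_pos _)]; exact a1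
    have hl : |lOp P e (chiB P e) x| ≤ 2 * Cχ := by
      rw [lOp_chiB S.hg, abs_mul]
      have hs := (labelOK_of_good S.hg (by linarith [S.hτ])).s1 x hD
      have h2 : |-(c0 P e x * d1 (label P.b) x) / Real.sqrt e| ≤ 2 := by
        rw [abs_div, abs_neg, abs_mul, abs_of_pos hr0, div_le_iff₀ hr0, c0, abs_mul,
          abs_of_pos hr0, abs_of_pos (root_pos _)]
        obtain ⟨p, q⟩ := abs_le.1 hs
        have : |d1 (label P.b) x| ≤ 5/4 := abs_le.2 ⟨by linarith [S.hτ], by linarith [S.hτ]⟩
        calc Real.sqrt e * root (aStar P e x) * |d1 (label P.b) x|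
            ≤ Real.sqrt e * (3/2) * (5/4) := by gcongr; exact root_le _
          _ ≤ 2 * Real.sqrt e := by linarith
      calc _ ≤ Cχ * 2 := mul_le_mul (hCχ _) h2 (abs_nonneg _) hC0
        _ = 2 * Cχ := by ring
    rw [abs_mul, abs_mul, abs_mul, abs_mul]
    calc |ρ x| * (|Rplus P e w x| * (|G x| * (|lOp P e (chiB P e) x| * |Test.amp P e x|)))
        ≤ 2 * (|Rplus P e w x| * (|G x| * (2 * Cχ * CA))) := by
          gcongr; linarith
      _ = 4 * Cχ * CA * (|Rplus P e w x| * |G x|) := by ring
  have hRc : Continuous (Rplus P e w) :=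
    ((contDiff_d2 (n := 1) hw).continuous.sub (hb1.continuous.mul
      (contDiff_d1 (n := 1) hw).continuous)).add
      ((contDiff_c0 (n := 1) (S.hg.ha.of_le (by norm_cast))).continuous.mul
        (contDiff_d1 (n := 1) hw).continuous)
  have iRG : IntegrableOn (fun x => |Rplus P e w x| * |G x|) B :=
    (hRc.abs.mul cG.abs).continuousOn.integrableOn_compact hB
  rw [eqI]
  refine abs_integral_le_integral_abs.trans ?_
  refine (integral_mono_of_nonneg (Filter.Eventually.of_forall fun x => abs_nonneg _)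
    (iRG.const_mul (4 * Cχ * CA)) ((ae_restrict_iff' hB.measurableSet).2
      (Filter.Eventually.of_forall bound))).trans ?_
  rw [integral_const_mul]
  refine mul_le_mul_of_nonneg_left ((setIntegral_abs_mul_le hB.measurableSet
    ((hRc.pow 2).continuousOn.integrableOn_compact hB)
    ((cG.pow 2).continuousOn.integrableOn_compact hB) iRG).trans ?_) (by positivity)
  refine mul_le_mul (Real.sqrt_le_sqrt ?_) (Real.sqrt_le_sqrt ?_) (Real.sqrt_nonneg _)
    (Real.sqrt_nonneg _)
  · have cen : Continuous (en e P w) := continuous_en hb1.continuous (hw.of_le (by norm_num))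
    have h1 : ∫ x in B, Rplus P e w x ^ 2 ≤ ∫ x in B, 5 * en e P w x := by
      refine setIntegral_mono_on ((hRc.pow 2).continuousOn.integrableOn_compact hB)
        ((continuous_const.mul cen).continuousOn.integrableOn_compact hB) hB.measurableSet
        fun x _ => ?_
      have hc2 : c0 P e x ^ 2 ≤ 9/4 * e := by
        rw [c0, mul_pow, Real.sq_sqrt S.he.le, mul_comm (9/4) e]
        refine mul_le_mul_of_nonneg_left ?_ S.he.le
        nlinarith [root_le (aStar P e x), root_pos (aStar P e x)]
      unfold Rplus en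
      have h3 := mul_le_mul_of_nonneg_right hc2 (sq_nonneg (d1 w x))
      nlinarith [sq_nonneg (P.V w x - c0 P e x * d1 w x)]
    refine h1.trans ?_
    rw [integral_const_mul]
    refine mul_le_mul_of_nonneg_left (setIntegral_mono_set
      (cen.continuousOn.integrableOn_compact hE) (Filter.Eventually.of_forall fun x => ?_)
      inter_subset_right.eventuallyLE) (by norm_num)
    exact add_nonneg (sq_nonneg _) (mul_nonneg S.he.le (sq_nonneg _))
  · exact (setIntegral_mono_set ((cG.pow 2).continuousOn.integrableOn_compact isCompact_bandBox)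
      (Filter.Eventually.of_forall fun x => sq_nonneg _) inter_subset_left.eventuallyLE).trans
      S.integral_packet_le

/-- `‖w‖²` on the band. -/
theorem band_norm_le {M : ℕ} (hM : 0 < M) {w : P2 → ℝ} (hw : ContDiff ℝ 1 w) {δ : ℝ}
    (hσ : 0 ≤ σ)
    (hcell : ∀ k : ℤ × ℤ, cell (1 / (50 * (M : ℝ))) k ⊆ Dsk (3/2) →
      |∫ x in cell (1 / (50 * (M : ℝ))) k, w x| ≤ δ) :
    ∫ x in bandBox, w x ^ 2 ≤
      4 * (1 / (50 * (M : ℝ))) ^ 2 * (2 / elo * ∫ x in Dsk (1 + σ / 2), en e P w x)
        + 4 / (1 / (50 * (M : ℝ))) ^ 2 * (188 * (M : ℝ) ^ 2) * δ ^ 2 := by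
  refine (band_poincare hM hw hcell).trans (add_le_add ?_ le_rfl)
  refine mul_le_mul_of_nonneg_left ?_ (by positivity)
  have hb : Continuous P.b := S.hg.hb.continuous
  have cen : Continuous (en e P w) := continuous_en hb hw
  have cD : Continuous fun x => d1 w x ^ 2 + d2 w x ^ 2 :=
    ((contDiff_d1 (n := 0) hw).continuous.pow 2).add ((contDiff_d2 (n := 0) hw).continuous.pow 2)
  calc ∫ x in bandBox, (d1 w x ^ 2 + d2 w x ^ 2) ≤ ∫ x in bandBox, 2 / elo * en e P w x := by
        refine setIntegral_mono_on (cD.continuousOn.integrableOn_compact isCompact_bandBox)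
          ((continuous_const.mul cen).continuousOn.integrableOn_compact isCompact_bandBox)
          isCompact_bandBox.measurableSet fun x _ => ?_
        have e1 : d2 w x = P.V w x + P.b x * d1 w x := by unfold Coef.V; ring
        rw [e1, div_mul_eq_mul_div, le_div_iff₀ S.helo]
        unfold en
        have hbx : P.b x ^ 2 ≤ τ ^ 2 := by
          rw [← sq_abs (P.b x)]; exact pow_le_pow_left₀ (abs_nonneg _) (S.hg.b0 x) 2
        have h1 : τ ^ 2 ≤ 1/4 := by nlinarith [S.tau_nonneg, S.hτ]
        have h2 := mul_le_mul_of_nonneg_right (hbx.trans h1) (sq_nonneg (d1 w x))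
        have h3 : d1 w x ^ 2 + (P.V w x + P.b x * d1 w x) ^ 2
            ≤ 2 * P.V w x ^ 2 + 3/2 * d1 w x ^ 2 := by
          nlinarith [sq_nonneg (P.V w x - P.b x * d1 w x)]
        have h4 := mul_le_mul_of_nonneg_right h3 S.helo.le
        have h5 := mul_le_mul_of_nonneg_right S.hle (sq_nonneg (d1 w x))
        have h6 := mul_le_mul_of_nonneg_left (show elo ≤ 1 by linarith [S.hle, S.he8])
          (sq_nonneg (P.V w x))
        have h7 := mul_nonneg S.helo.le (sq_nonneg (d1 w x))
        linarith
    _ = 2 / elo * ∫ x in bandBox, en e P w x := integral_const_mul _ _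
    _ ≤ 2 / elo * ∫ x in Dsk (1 + σ / 2), en e P w x := by
        refine mul_le_mul_of_nonneg_left (setIntegral_mono_set
          (cen.continuousOn.integrableOn_compact (isCompact_dsk _))
          (Filter.Eventually.of_forall fun x => add_nonneg (sq_nonneg _)
            (mul_nonneg S.he.le (sq_nonneg _)))
          (HasSubset.Subset.eventuallyLE fun x hx => ?_)) (div_nonneg (by norm_num) S.helo.le)
        show rsq x ≤ 1 + σ / 2
        linarith [rsq_le_of_mem_bandBox hx]

end Setup

end Vale.Agent.P229.Test
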