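import Vale.Agent.P229.Interfaces
import Vale.Agent.P229.Energy
import Vale.Agent.P229.Test.Lower
import Vale.Agent.P229.Test.Upper

/-!
# P229: the linear obstruction `Core`
-/

namespace Vale.Agent.P229.Test

open MeasureTheory Set
open scoped ContDiff

/-- The final algebra: the two errors are absorbed. -/
lemma absorb {X Y₁ Y₂ κ p₁ p₂ D δ r : ℝ} (hκ : 0 < κ) (hδ : 0 ≤ δ) (hX : 0 ≤ X)
    (h : X * (κ - r) ≤ Y₁ + Y₂) (hr : r ≤ κ / 4) (h₁ : Y₁ ≤ X * p₁ + D * δ)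
    (h₂ : Y₂ ≤ X * p₂ + D * δ) (hp₁ : p₁ ≤ κ / 4) (hp₂ : p₂ ≤ κ / 4) (hD : 0 ≤ D) :
    X ≤ 8 * D / κ * δ := by
  have e : 8 * D / κ * δ = (8 * D * δ) / κ := by ring
  rw [e, le_div_iff₀ hκ]
  nlinarith [mul_le_mul_of_nonneg_left hp₁ hX, mul_le_mul_of_nonneg_left hp₂ hX,
    mul_le_mul_of_nonneg_left hr hX, mul_nonneg hD hδ]

/-- Splitting a square root. -/
lemma sqrt_budget {Y A c ε δ μ Λ a : ℝ} (hY : Y ≤ c * (μ ^ 2 * Λ * a) + ε * δ ^ 2)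
    (hA : A = 300 / Λ * a) (hA0 : 0 ≤ A) (hA3 : A ≤ 900) (hc : 0 ≤ c) (hε : 0 ≤ ε) (hΛ : 0 < Λ)
    (hμ : 0 ≤ μ) (ha : 0 ≤ a) (hδ : 0 ≤ δ) :
    Real.sqrt Y * Real.sqrt A ≤ μ * a * Real.sqrt (300 * c) + Real.sqrt (900 * ε) * δ := by
  rw [← Real.sqrt_mul' _ hA0]
  have h2 : Y * A ≤ 300 * c * (μ * a) ^ 2 + 900 * ε * δ ^ 2 := by
    refine (mul_le_mul_of_nonneg_right hY hA0).trans ?_
    rw [add_mul]
    refine add_le_add (le_of_eq ?_) ?_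
    · rw [hA]; field_simp
    · calc ε * δ ^ 2 * A ≤ ε * δ ^ 2 * 900 := mul_le_mul_of_nonneg_left hA3 (by positivity)
        _ = 900 * ε * δ ^ 2 := by ring
  refine (Real.sqrt_le_sqrt h2).trans ?_
  rw [Real.sqrt_le_iff]
  refine ⟨by positivity, ?_⟩
  have p1 : 0 ≤ μ * a * Real.sqrt (300 * c) * (Real.sqrt (900 * ε) * δ) := by positivity
  nlinarith [Real.sq_sqrt (show 0 ≤ 300 * c by positivity),
    Real.sq_sqrt (show 0 ≤ 900 * ε by positivity), p1]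

/-- The two error terms within their budgets. -/
lemma budgets {Eb Qb CE Cd CF θ elo h Kh μ δ a Λ Eedge Eall W2 rF : ℝ} (hEb : 0 ≤ Eb) (hQb : 0 ≤ Qb)
    (hCE : 0 ≤ CE) (hCd : 0 ≤ Cd) (hCF : 0 ≤ CF) (hθ : 0 ≤ θ) (helo : 0 ≤ elo) (hh : 0 ≤ h)
    (hKh : 0 ≤ Kh) (hμ : 0 ≤ μ) (hδ : 0 ≤ δ) (ha : 0 ≤ a) (hΛ0 : 0 < Λ) (hcard : a ≤ 3 * Λ)
    (hrF : rF ≤ CF * (μ ^ 2 * Λ * a)) (hedge : Eedge ≤ CE * θ * rF + Cd * δ ^ 2)
    (hall : Eall ≤ CE * rF + Cd * δ ^ 2)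
    (hbn : W2 ≤ 4 * h ^ 2 * (2 / elo * Eall) + Kh * δ ^ 2) :
    Eb * (Real.sqrt (5 * Eedge) * Real.sqrt (300 / Λ * a))
        ≤ μ * a * (Real.sqrt θ * (Eb * Real.sqrt (5 * 300 * (CE * CF))))
          + (Eb * Real.sqrt (5 * 300 * Cd * 3)
            + Qb * Real.sqrt (300 * (4 * h ^ 2 * (2 / elo) * Cd + Kh) * 3)) * δ ∧
      Qb * (Real.sqrt W2 * Real.sqrt (300 / Λ * a))
        ≤ μ * a * (Qb * Real.sqrt (300 * (8 / elo) * (CE * CF)) * h)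
          + (Eb * Real.sqrt (5 * 300 * Cd * 3)
            + Qb * Real.sqrt (300 * (4 * h ^ 2 * (2 / elo) * Cd + Kh) * 3)) * δ := by
  have hA0 : 0 ≤ 300 / Λ * a := by positivity
  have hA3 : 300 / Λ * a ≤ 900 := by
    rw [div_mul_eq_mul_div, div_le_iff₀ hΛ0]; linarith
  set D := Eb * Real.sqrt (5 * 300 * Cd * 3)
    + Qb * Real.sqrt (300 * (4 * h ^ 2 * (2 / elo) * Cd + Kh) * 3)
  constructor
  · have h1 : 5 * Eedge ≤ θ * (5 * (CE * CF)) * (μ ^ 2 * Λ * a) + 5 * Cd * δ ^ 2 := by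
      have := mul_le_mul_of_nonneg_left hrF (by positivity : 0 ≤ CE * θ)
      linarith
    have h5 := sqrt_budget h1 rfl hA0 hA3 (by positivity) (by positivity) hΛ0 hμ ha hδ
    refine (mul_le_mul_of_nonneg_left h5 hEb).trans ?_
    have e1 : Real.sqrt (300 * (θ * (5 * (CE * CF))))
        = Real.sqrt θ * Real.sqrt (5 * 300 * (CE * CF)) := by
      rw [← Real.sqrt_mul hθ]; congr 1; ring
    have e2 : Real.sqrt (900 * (5 * Cd)) = Real.sqrt (5 * 300 * Cd * 3) := by congr 1; ring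
    rw [e1, e2]
    have : Eb * Real.sqrt (5 * 300 * Cd * 3) * δ ≤ D * δ :=
      mul_le_mul_of_nonneg_right (le_add_of_nonneg_right (by positivity)) hδ
    linarith
  · have h1 : W2 ≤ h ^ 2 * (8 / elo * (CE * CF)) * (μ ^ 2 * Λ * a)
          + (4 * h ^ 2 * (2 / elo) * Cd + Kh) * δ ^ 2 := by
      refine hbn.trans ?_
      have hpos : 0 ≤ 4 * h ^ 2 * (2 / elo) := by positivity
      have k1 := mul_le_mul_of_nonneg_left hall hpos
      have k2 := mul_le_mul_of_nonneg_left (mul_le_mul_of_nonneg_left hrF hCE) hpos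
      have e3 : h ^ 2 * (8 / elo * (CE * CF)) * (μ ^ 2 * Λ * a)
          = 4 * h ^ 2 * (2 / elo) * (CE * (CF * (μ ^ 2 * Λ * a))) := by ring
      rw [e3]
      linarith
    have h5 := sqrt_budget h1 rfl hA0 hA3 (by positivity) (by positivity) hΛ0 hμ ha hδ
    refine (mul_le_mul_of_nonneg_left h5 hQb).trans ?_
    have e1 : Real.sqrt (300 * (h ^ 2 * (8 / elo * (CE * CF))))
        = Real.sqrt (300 * (8 / elo) * (CE * CF)) * h := by
      rw [show 300 * (h ^ 2 * (8 / elo * (CE * CF))) = 300 * (8 / elo) * (CE * CF) * h ^ 2 by ring,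
        Real.sqrt_mul' _ (sq_nonneg h), Real.sqrt_sq hh]
    have e2 : Real.sqrt (900 * (4 * h ^ 2 * (2 / elo) * Cd + Kh))
        = Real.sqrt (300 * (4 * h ^ 2 * (2 / elo) * Cd + Kh) * 3) := by congr 1; ring
    rw [e1, e2]
    have : Qb * Real.sqrt (300 * (4 * h ^ 2 * (2 / elo) * Cd + Kh) * 3) * δ ≤ D * δ :=
      mul_le_mul_of_nonneg_right (le_add_of_nonneg_left (by positivity)) hδ
    linarith

/-- Size of the forcing. -/
lemma abs_forcing_le {n : ℕ} {P : Coef} {T τ elo e K σ CA Λ slope μ L₀ : ℝ} {t d : Fin n → ℝ}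
    (S : Setup P T τ elo e K σ CA Λ slope t d) (hμ : 0 ≤ μ) (hL₀ : 0 ≤ L₀)
    (hlap : ∀ z, |lap bump z| ≤ L₀) {q g : P2 → ℝ}
    (hqb : ∀ x ∈ Dsk (3/2), 1 / K ≤ q x ∧ q x ≤ K ∧ |d1 q x| ≤ K ∧ |d2 q x| ≤ K)
    (hgb : ∀ x, |g x| ≤ K * μ * Λ)
    (hgz : ∀ x, (∀ i, d i = 0 ∨ 1 < rsq (zoom Λ (rowPt slope t i) x)) → g x = 0) :
    (∀ x, (∀ i, d i = 0 ∨ 1 < rsq (zoom Λ (rowPt slope t i) x)) →
        q x * lap (combB μ Λ (rowPt slope t) d) x + g x = 0) ∧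
      ∀ x, |q x * lap (combB μ Λ (rowPt slope t) d) x + g x| ≤ K * μ * Λ ^ 2 * (L₀ + 1) := by
  have hΛ0 := S.hΛ0
  have hK := S.hK
  have hz : ∀ x, (∀ i, d i = 0 ∨ 1 < rsq (zoom Λ (rowPt slope t i) x)) →
      q x * lap (combB μ Λ (rowPt slope t) d) x + g x = 0 := by
    intro x hx
    rw [hgz x hx, add_zero, lap_combB, Finset.sum_eq_zero fun i _ => ?_, mul_zero, mul_zero]
    rcases hx i with h0 | h0
    · rw [h0, zero_mul]
    · rw [lap_bump_eq_zero h0, mul_zero]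
  refine ⟨hz, fun x => ?_⟩
  by_cases hx : ∀ i, d i = 0 ∨ 1 < rsq (zoom Λ (rowPt slope t i) x)
  · rw [hz x hx, abs_zero]; positivity
  · obtain ⟨i, hi⟩ := not_forall.1 hx
    rw [not_or, not_lt] at hi
    obtain ⟨-, hD', -⟩ := S.ball_facts i (mem_closedBall_of_zoom hΛ0 hi.2)
    obtain ⟨q0, q1, -⟩ := hqb x hD'
    have hlc : |lap (combB μ Λ (rowPt slope t) d) x| ≤ μ * Λ ^ 2 * L₀ := by
      rw [lap_combB, abs_mul, abs_of_nonneg (by positivity : 0 ≤ μ * Λ ^ 2)]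
      refine mul_le_mul_of_nonneg_left ?_ (by positivity)
      rw [Finset.sum_eq_single i (fun k _ hk => ?_) (fun h' => absurd (Finset.mem_univ i) h'),
        abs_mul]
      · have hdi : |d i| ≤ 1 := by rcases S.hd i with h' | h' | h' <;> rw [h'] <;> norm_num
        calc |d i| * |lap bump (zoom Λ (rowPt slope t i) x)| ≤ 1 * L₀ :=
              mul_le_mul hdi (hlap _) (abs_nonneg _) zero_le_one
          _ = L₀ := one_mul _
      · rcases le_or_gt (rsq (zoom Λ (rowPt slope t k) x)) 1 with hz | hz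
        · exact absurd (eq_of_zoom_le hΛ0 S.hsep3 hz hi.2) hk
        · rw [lap_bump_eq_zero hz, mul_zero]
    refine (abs_add_le _ _).trans ?_
    rw [abs_mul]
    have hqa : |q x| ≤ K := by
      rw [abs_of_pos (lt_of_lt_of_le (by positivity) q0)]; exact q1
    have hk1 := mul_le_mul hqa hlc (abs_nonneg _) (by linarith)
    have hk2 : K * μ * Λ ≤ K * μ * Λ ^ 2 := by
      refine mul_le_mul_of_nonneg_left ?_ (by positivity)
      nlinarith [S.hΛ]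
    have := hgb x
    linarith

/-- The main constant. -/
noncomputable def kap (K CA : ℝ) : ℝ := 1 / K * (18/25) / CA * ∫ z, bump z

/-- The relative error of the main term. -/
noncomputable def err₁ (K CA : ℝ) : ℝ :=
  5 * K * CA ^ 2 * (32 * CA + 16) * (∫ z, |lap bump z|) + 9 * K * CA * area

/-- The forcing constant. -/
noncomputable def cF (T K L₀ : ℝ) : ℝ := 2 * (1 + T) * (K ^ 2 * (L₀ + 1) ^ 2 * area)

/-- The cost of the data. -/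
noncomputable def dCost (Eb Qb Cd elo h Kh : ℝ) : ℝ :=
  Eb * Real.sqrt (5 * 300 * Cd * 3) + Qb * Real.sqrt (300 * (4 * h ^ 2 * (2 / elo) * Cd + Kh) * 3)

lemma sum_sq_le {n : ℕ} {d : Fin n → ℝ} (hd : ∀ i, d i = -1 ∨ d i = 0 ∨ d i = 1) :
    active d ≤ n := by
  have : ∀ i, d i ^ 2 ≤ 1 := fun i => by rcases hd i with h | h | h <;> rw [h] <;> norm_num
  calc active d ≤ ∑ _i : Fin n, (1:ℝ) := Finset.sum_le_sum fun i _ => this i
    _ = n := by simp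

lemma active_le {n : ℕ} {P : Coef} {T τ elo e K σ CA Λ slope : ℝ} {t d : Fin n → ℝ}
    (S : Setup P T τ elo e K σ CA Λ slope t d) : active d ≤ 3 * Λ := by
  have h2 : (n : ℝ) ≤ Λ + 2 := card_le S.hΛ (fun i k hik => by
      have h' := S.hsep i k hik
      rw [div_le_iff₀ S.hΛ0] at h'
      nlinarith [S.hT]) fun i => by
    refine (S.ht i).trans ?_
    rw [div_le_iff₀ (by linarith [S.hT])]
    have hs : Real.sqrt elo ≤ 1 := Real.sqrt_le_one.2 (by linarith [S.hle, S.he8])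
    linarith [S.hT]
  linarith [sum_sq_le S.hd, S.hΛ]

/-- Everything for one pocket and one forcing. -/
lemma core_step {n : ℕ} {P : Coef} {T τ elo e K σ CA Λ slope μ δ L₀ Cχ CE Cd θ : ℝ}
    {t d : Fin n → ℝ} (S : Setup P T τ elo e K σ CA Λ slope t d) (hμ : 0 ≤ μ) (hδ : 0 ≤ δ)
    (hσ : 0 ≤ σ) (hCE : 0 ≤ CE) (hCd : 0 ≤ Cd) (hθ : 0 ≤ θ) (hCA4 : 4 * CA ≤ Λ)
    (hL₀ : 0 ≤ L₀) (hlap : ∀ z, |lap bump z| ≤ L₀) (hCχ : ∀ s, |deriv chiS s| ≤ Cχ)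
    {M : ℕ} (hM : 0 < M) {q g w : P2 → ℝ} (hq : ContDiff ℝ 1 q)
    (hqb : ∀ x ∈ Dsk (3/2), 1 / K ≤ q x ∧ q x ≤ K ∧ |d1 q x| ≤ K ∧ |d2 q x| ≤ K)
    (hgc : Continuous g) (hgb : ∀ x, |g x| ≤ K * μ * Λ)
    (hgz : ∀ x, (∀ i, d i = 0 ∨ 1 < rsq (zoom Λ (rowPt slope t i) x)) → g x = 0)
    (hw : ContDiff ℝ 3 w)
    (hop : ∀ x ∈ Dsk (3/2), P.op w x = q x * lap (combB μ Λ (rowPt slope t) d) x + g x)
    (hdata : DataSmall σ (1 / (50 * (M : ℝ))) δ w)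
    (hEB : ∀ f : P2 → ℝ, Continuous f →
      (∀ x, f x ≠ 0 → |x.1| ≤ Real.sqrt elo / 20 ∧ |x.2 - slope * x.1| ≤ 2 * (1 + T) / Λ) →
      (∀ x ∈ Dsk (3/2), P.op w x = f x) →
      (∫ x in Dsk (1 + σ / 2), en e P w x) ≤ CE * (2 * (1 + T) / Λ * ∫ x, f x ^ 2) + Cd * δ ^ 2 ∧
        (∫ x in edgeSet e (label P.b), en e P w x) ≤
          CE * θ * (2 * (1 + T) / Λ * ∫ x, f x ^ 2) + Cd * δ ^ 2) :
    μ * active d * (kap K CA - err₁ K CA / Λ) ≤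
      μ * active d * (2 * (CA ^ 2 * (1 + 2 * Cχ + CA))
          * Real.sqrt (300 * (8 / elo) * (CE * cF T K L₀)) * (1 / (50 * (M : ℝ))))
        + μ * active d * (Real.sqrt θ * (4 * Cχ * CA * Real.sqrt (5 * 300 * (CE * cF T K L₀))))
        + 2 * dCost (4 * Cχ * CA) (2 * (CA ^ 2 * (1 + 2 * Cχ + CA))) Cd elo (1 / (50 * (M : ℝ)))
            (4 / (1 / (50 * (M : ℝ))) ^ 2 * (188 * (M : ℝ) ^ 2)) * δ := by
  have hΛ0 := S.hΛ0
  have hT := S.hT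
  obtain ⟨hfz, hfb⟩ := abs_forcing_le S hμ hL₀ hlap hqb hgb hgz
  have hfc : Continuous fun x => q x * lap (combB μ Λ (rowPt slope t) d) x + g x :=
    (hq.continuous.mul (continuous_lap_combB _ _ _ _)).add hgc
  have hF := integral_sq_forcing_le hΛ0 S.hsep3 S.hd hfc hfb hfz
  have hrF : 2 * (1 + T) / Λ * (∫ x, (q x * lap (combB μ Λ (rowPt slope t) d) x + g x) ^ 2)
      ≤ cF T K L₀ * (μ ^ 2 * Λ * active d) := by
    refine (mul_le_mul_of_nonneg_left hF (by positivity)).trans (le_of_eq ?_)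
    rw [cF, area]; field_simp
  have hstrip : ∀ x, q x * lap (combB μ Λ (rowPt slope t) d) x + g x ≠ 0 →
      |x.1| ≤ Real.sqrt elo / 20 ∧ |x.2 - slope * x.1| ≤ 2 * (1 + T) / Λ := by
    intro x hx
    obtain ⟨i, hi⟩ := not_forall.1 fun h' => hx (hfz x h')
    rw [not_or, not_lt] at hi
    obtain ⟨-, -, h1, h2, -⟩ := S.ball_facts i (mem_closedBall_of_zoom hΛ0 hi.2)
    refine ⟨h1, h2.trans ?_⟩
    gcongr; linarith
  obtain ⟨hall, hedge⟩ := hEB _ hfc hstrip hop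
  have hid := test_identity (w := w) S.hg S.he S.amp S.hasCompactSupport_testH S.band_cond hw hop hfc
  have hlow := S.pairing_lower hμ hq hqb hgc hgb hgz hCA4
  rw [hid] at hlow
  have hu1 := S.upper_low hCχ (hw.of_le (by norm_num) : ContDiff ℝ 1 w)
  have hu2 := S.upper_edge hCχ (hw.of_le (by norm_num) : ContDiff ℝ 2 w)
  have hbn := S.band_norm_le hM (hw.of_le (by norm_num) : ContDiff ℝ 1 w) hσ hdata.2
  have hC0 : 0 ≤ Cχ := (abs_nonneg _).trans (hCχ 0)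
  have hCA := S.hCA
  have hcF : 0 ≤ cF T K L₀ := by unfold cF; have := area_nonneg; positivity
  obtain ⟨b2, b1⟩ := budgets (Eb := 4 * Cχ * CA) (Qb := 2 * (CA ^ 2 * (1 + 2 * Cχ + CA)))
    (by positivity) (by positivity) hCE hCd hcF hθ S.helo.le (by positivity : (0:ℝ) ≤ 1 / (50 * (M:ℝ)))
    (by positivity : (0:ℝ) ≤ 4 / (1 / (50 * (M : ℝ))) ^ 2 * (188 * (M : ℝ) ^ 2))
    hμ hδ (Finset.sum_nonneg fun i _ => sq_nonneg _) hΛ0 (active_le S) hrF hedge hall hbn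
  have htot := hlow.trans ((le_abs_self _).trans ((abs_sub _ _).trans (add_le_add hu1 hu2)))
  rw [kap, err₁, dCost]
  simp only [active] at *
  linarith

theorem core_of_energy (hE : EnergyBound) : Core := by
  intro T hT
  obtain ⟨τE, eE, hτE, heE, hEB⟩ := hE T hT
  obtain ⟨C₁, hC₁, hspeed⟩ := exists_speed_vel
  obtain ⟨Cχ, hCχ0, hCχ⟩ := exists_chiS_bound
  obtain ⟨L₀, hL₀, hlap⟩ := exists_lap_bump_bound
  obtain ⟨τ, hτpos, hτE', hτ4, hτT⟩ : ∃ τ : ℝ, 0 < τ ∧ τ ≤ τE ∧ τ ≤ 1/10000 ∧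
      τ ≤ 1 / (300 * (1 + T)) :=
    ⟨min τE (min (1/10000) (1 / (300 * (1 + T)))), lt_min hτE (lt_min (by norm_num) (by positivity)),
      min_le_left _ _, (min_le_right _ _).trans (min_le_left _ _),
      (min_le_right _ _).trans (min_le_right _ _)⟩
  obtain ⟨e₀, he₀pos, he₀E, he₀8, he₀T, he₀C⟩ : ∃ e₀ : ℝ, 0 < e₀ ∧ e₀ ≤ eE ∧ e₀ ≤ 1/100000000 ∧
      e₀ ≤ (1 / (300 * (1 + T))) ^ 2 ∧ e₀ ≤ (1 / (100 * (C₁ + 1))) ^ 2 :=
    ⟨min eE (min (1/100000000) (min ((1 / (300 * (1 + T))) ^ 2) ((1 / (100 * (C₁ + 1))) ^ 2))),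
      lt_min heE (lt_min (by norm_num) (lt_min (by positivity) (by positivity))),
      min_le_left _ _, (min_le_right _ _).trans (min_le_left _ _),
      (min_le_right _ _).trans ((min_le_right _ _).trans (min_le_left _ _)),
      (min_le_right _ _).trans ((min_le_right _ _).trans (min_le_right _ _))⟩
  refine ⟨τ, e₀, hτpos, he₀pos, fun elo ehi K helo hle hhi hK => ?_⟩
  obtain ⟨CE, hCE, hEB⟩ := hEB τ elo ehi K hτpos hτE' helo hle (hhi.trans he₀E) hK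
  obtain ⟨CA, hCA, hAmp⟩ := exists_ampOK elo ehi K helo
  have hκ : 0 < kap K CA := by
    have := integral_bump_pos
    unfold kap; positivity
  obtain ⟨P₂, hP₂, eP₂⟩ : ∃ P₂ : ℝ, 0 ≤ P₂ ∧
      4 * Cχ * CA * Real.sqrt (5 * 300 * (CE * cF T K L₀)) = P₂ := ⟨_, by positivity, rfl⟩
  obtain ⟨θ, hθ, hθ1, hθP⟩ : ∃ θ : ℝ, 0 < θ ∧ θ ≤ 1 ∧ Real.sqrt θ * P₂ ≤ kap K CA / 4 := by
    refine ⟨min 1 ((kap K CA / (4 * (P₂ + 1))) ^ 2), lt_min zero_lt_one (by positivity),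
      min_le_left _ _, ?_⟩
    have h1 : Real.sqrt (min 1 ((kap K CA / (4 * (P₂ + 1))) ^ 2)) ≤ kap K CA / (4 * (P₂ + 1)) :=
      Real.sqrt_le_iff.2 ⟨by positivity, min_le_right _ _⟩
    refine (mul_le_mul_of_nonneg_right h1 hP₂).trans ?_
    rw [div_mul_eq_mul_div, div_le_div_iff₀ (by positivity) (by norm_num)]
    linarith
  obtain ⟨σ, Cd, hσ, hσ', hCd, hEB⟩ := hEB θ hθ hθ1
  obtain ⟨P₁, hP₁, eP₁⟩ : ∃ P₁ : ℝ, 0 ≤ P₁ ∧ 2 * (CA ^ 2 * (1 + 2 * Cχ + CA))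
      * Real.sqrt (300 * (8 / elo) * (CE * cF T K L₀)) = P₁ := ⟨_, by positivity, rfl⟩
  obtain ⟨M, hM, hP₁h⟩ : ∃ M : ℕ, 0 < M ∧ P₁ * (1 / (50 * (M : ℝ))) ≤ kap K CA / 4 := by
    refine ⟨⌈(P₁ + 1) / kap K CA⌉₊ + 1, Nat.succ_pos _, ?_⟩
    have h1 : (P₁ + 1) / kap K CA ≤ ((⌈(P₁ + 1) / kap K CA⌉₊ + 1 : ℕ) : ℝ) := by
      push_cast
      linarith [Nat.le_ceil ((P₁ + 1) / kap K CA)]
    rw [div_le_iff₀ hκ] at h1
    rw [mul_one_div, div_le_iff₀ (by positivity)]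
    have : 0 ≤ ((⌈(P₁ + 1) / kap K CA⌉₊ + 1 : ℕ) : ℝ) * kap K CA := by positivity
    linarith
  obtain ⟨D, hD, eD⟩ : ∃ D : ℝ, 0 ≤ D ∧ dCost (4 * Cχ * CA) (2 * (CA ^ 2 * (1 + 2 * Cχ + CA))) Cd elo
      (1 / (50 * (M : ℝ))) (4 / (1 / (50 * (M : ℝ))) ^ 2 * (188 * (M : ℝ) ^ 2)) = D :=
    ⟨_, by unfold dCost; positivity, rfl⟩
  have h200 : 0 ≤ 200 * (1 + T) / Real.sqrt elo := by positivity
  refine ⟨σ, 1 / (50 * (M : ℝ)),
    1 + 200 * (1 + T) / Real.sqrt elo + 4 * CA + |4 * err₁ K CA / kap K CA|,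
    8 * D / kap K CA + 1, hσ, hσ', by positivity,
    by linarith [abs_nonneg (4 * err₁ K CA / kap K CA)], by positivity, ?_⟩
  intro e P he hg n Λ μ δ slope t d q g w hΛ hμ hδ hslope ht hsep hd hq hqb hgc hgb hgz hw hop hdata
  have ha4 := abs_nonneg (4 * err₁ K CA / kap K CA)
  have hΛ1 : 1 ≤ Λ := by linarith
  have hepos : 0 < e := helo.trans_le he.1
  have hee₀ : e ≤ e₀ := he.2.trans hhi
  have heT : Real.sqrt e ≤ 1 / (300 * (1 + T)) :=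
    Real.sqrt_le_iff.2 ⟨by positivity, hee₀.trans he₀T⟩
  have heC : Real.sqrt e ≤ 1 / (100 * (C₁ + 1)) :=
    Real.sqrt_le_iff.2 ⟨by positivity, hee₀.trans he₀C⟩
  have hV := hspeed e P τ K σ hepos (by linarith) hg
  have hL : τ + C₁ * Real.sqrt e ≤ 1/20 := by
    have h1 := mul_le_mul_of_nonneg_left heC hC₁
    have h2 : C₁ * (1 / (100 * (C₁ + 1))) ≤ 1/100 := by
      rw [mul_one_div, div_le_iff₀ (by positivity)]; linarith
    linarith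
  have S : Setup P T τ elo e K σ CA Λ slope t d :=
    ⟨hT, helo, he.1, hee₀.trans he₀8, heT, hτ4, hτT, hg, ⟨_, _, hV, le_rfl⟩,
      hAmp e P τ σ _ _ he hg hV hL, hCA, hK, hΛ1, by linarith, hslope, ht, hsep, hd⟩
  have hr1 : 2 * (1 + T) / Λ ≤ Real.sqrt elo / 100 := by
    have := S.inv_le
    rw [mul_div_assoc]; linarith
  have hstep := core_step S hμ hδ hσ.le hCE.le hCd.le hθ.le (by linarith) hL₀ hlap hCχ hM hq hqb hgc
    hgb hgz hw hop hdata fun f hf hfs hfe => hEB e P (label P.b) he hg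
      (labelOK_of_good hg (by linarith)) _ δ slope f w (div_pos (by linarith) S.hΛ0) hr1 hδ hslope
      hf hfs hw hfe hdata.1
  rw [eP₁, eP₂, eD] at hstep
  have hrΛ : err₁ K CA / Λ ≤ kap K CA / 4 := by
    rw [div_le_iff₀ S.hΛ0]
    have h1 : 4 * err₁ K CA / kap K CA ≤ Λ := (le_abs_self _).trans (by linarith)
    rw [div_le_iff₀ hκ] at h1
    linarith
  have hact : 0 ≤ active d := Finset.sum_nonneg fun i _ => sq_nonneg _
  have hX := absorb (Y₁ := μ * active d * (P₁ * (1 / (50 * (M : ℝ)))) + D * δ)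
    (Y₂ := μ * active d * (Real.sqrt θ * P₂) + D * δ) hκ hδ (mul_nonneg hμ hact)
    (by linarith) hrΛ le_rfl le_rfl hP₁h hθP hD
  refine hX.trans ?_
  have h4 : (1:ℝ) ≤ Λ ^ 4 := one_le_pow₀ hΛ1
  calc 8 * D / kap K CA * δ ≤ (8 * D / kap K CA + 1) * δ := mul_le_mul_of_nonneg_right (by linarith) hδ
    _ ≤ (8 * D / kap K CA + 1) * δ * Λ ^ 4 := le_mul_of_one_le_right (by positivity) h4

theorem core : Core := core_of_energy energyBound

end Vale.Agent.P229.Test
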