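import Vale.Agent.P229.Calc
import Vale.Agent.P229.Test.Profiles

/-!
# P229 seat D: packets constant along characteristics, and integration by parts along them
-/

namespace Vale.Agent.P229.Test

open MeasureTheory Set
open scoped ContDiff

/-- A sum of separated profiles in the characteristic label. -/
noncomputable def packet {n : ℕ} (σ : P2 → ℝ) (Λ : ℝ) (c d : Fin n → ℝ) (x : P2) : ℝ :=
  ∑ i, d i * gProf (Λ * (σ x - c i))

variable {n : ℕ} {σ : P2 → ℝ} {Λ : ℝ} {c d : Fin n → ℝ}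

lemma packet_eq_single (hΛ : 0 < Λ) (hsep : ∀ i k, i ≠ k → 6 ≤ Λ * |c i - c k|) (i : Fin n)
    {x : P2} (hx : |Λ * (σ x - c i)| < 3) :
    packet σ Λ c d x = d i * gProf (Λ * (σ x - c i)) := by
  refine Finset.sum_eq_single i (fun k _ hk => ?_) (fun h => absurd (Finset.mem_univ i) h)
  rw [gProf_eq_zero, mul_zero]
  have h1 := hsep k i hk
  rw [← abs_of_pos hΛ, ← abs_mul, mul_sub] at h1
  have h2 : |Λ * c k - Λ * c i| ≤ |Λ * (σ x - c k)| + |Λ * (σ x - c i)| := by
    have h3 := abs_sub (Λ * (σ x - c i)) (Λ * (σ x - c k))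
    have e : Λ * (σ x - c i) - Λ * (σ x - c k) = Λ * c k - Λ * c i := by ring
    rw [e] at h3; linarith
  linarith

/-- Where a packet is nonzero some profile is active. -/
lemma exists_of_packet_ne_zero {x : P2} (h : packet σ Λ c d x ≠ 0) :
    ∃ i, d i ≠ 0 ∧ |Λ * (σ x - c i)| < 3 := by
  obtain ⟨i, -, hi⟩ := Finset.exists_ne_zero_of_sum_ne_zero h
  refine ⟨i, left_ne_zero_of_mul hi, ?_⟩
  by_contra h'
  exact right_ne_zero_of_mul hi (gProf_eq_zero (not_lt.1 h'))

lemma packet_sq_le (hΛ : 0 < Λ) (hsep : ∀ i k, i ≠ k → 6 ≤ Λ * |c i - c k|) (x : P2) :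
    packet σ Λ c d x ^ 2 ≤
      ∑ i, {y | |Λ * (σ y - c i)| < 3}.indicator (fun _ => 81/4 * d i ^ 2) x := by
  have h0 : ∀ i, 0 ≤ {y | |Λ * (σ y - c i)| < 3}.indicator (fun _ => 81/4 * d i ^ 2) x :=
    fun i => indicator_nonneg (fun _ _ => by positivity) x
  by_cases h : packet σ Λ c d x = 0
  · rw [h]; simpa using Finset.sum_nonneg fun i _ => h0 i
  · obtain ⟨i, -, hi⟩ := exists_of_packet_ne_zero h
    refine le_trans ?_ (Finset.single_le_sum (fun k _ => h0 k) (Finset.mem_univ i))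
    rw [indicator_of_mem (show x ∈ {y | |Λ * (σ y - c i)| < 3} from hi),
      packet_eq_single hΛ hsep i hi, mul_pow]
    have h1 : gProf (Λ * (σ x - c i)) ^ 2 ≤ 81/4 := by
      have := pow_le_pow_left₀ (abs_nonneg _) (abs_gProf_le (Λ * (σ x - c i))) 2
      rw [sq_abs] at this; linarith
    nlinarith [mul_le_mul_of_nonneg_left h1 (sq_nonneg (d i))]

/-- The test box. -/
def box (R : ℝ) : Set P2 := Icc (-R) R ×ˢ Icc (-1) 1

lemma isCompact_box (R : ℝ) : IsCompact (box R) := isCompact_Icc.prod isCompact_Icc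

/-- A label strip has area `O(1 / Λ)`. -/
lemma strip_volume_le (hσ : Continuous σ) (hΛ : 0 < Λ) {R m : ℝ} (hm : 0 < m)
    (hlow : ∀ y ∈ Icc (-1 : ℝ) 1, ∀ a ∈ Icc (-R) R, ∀ b ∈ Icc (-R) R,
      m * |a - b| ≤ |σ (a, y) - σ (b, y)|) (c₀ : ℝ) :
    volume (box R ∩ {x | |Λ * (σ x - c₀)| < 3}) ≤ ENNReal.ofReal (12 / (m * Λ)) := by
  set S := box R ∩ {x | |Λ * (σ x - c₀)| < 3} with hS
  have hmeas : MeasurableSet S := (isCompact_box R).measurableSet.inter
    (isOpen_lt (by fun_prop) continuous_const).measurableSet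
  rw [Measure.volume_eq_prod, Measure.prod_apply_symm hmeas]
  calc ∫⁻ y, volume ((fun x => (x, y)) ⁻¹' S)
      ≤ ∫⁻ y, (Icc (-1 : ℝ) 1).indicator (fun _ => ENNReal.ofReal (6 / (m * Λ))) y := by
        refine lintegral_mono fun y => ?_
        by_cases hy : y ∈ Icc (-1 : ℝ) 1
        · rw [indicator_of_mem hy]
          refine (Real.volume_le_diam _).trans (Metric.ediam_le fun a ha b hb => ?_)
          obtain ⟨⟨ha1, -⟩, ha2⟩ := ha
          obtain ⟨⟨hb1, -⟩, hb2⟩ := hb
          rw [edist_dist]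
          refine ENNReal.ofReal_le_ofReal ?_
          rw [Real.dist_eq, le_div_iff₀ (by positivity)]
          have h1 := hlow y hy a ha1 b hb1
          have h2 : |Λ * (σ (a, y) - σ (b, y))| ≤ 6 := by
            have h3 := abs_sub (Λ * (σ (a, y) - c₀)) (Λ * (σ (b, y) - c₀))
            have e : Λ * (σ (a, y) - c₀) - Λ * (σ (b, y) - c₀)
                = Λ * (σ (a, y) - σ (b, y)) := by ring
            rw [e] at h3
            have h4 : |Λ * (σ (a, y) - c₀)| < 3 := ha2
            have h5 : |Λ * (σ (b, y) - c₀)| < 3 := hb2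
            linarith
          rw [abs_mul, abs_of_pos hΛ] at h2
          nlinarith [mul_le_mul_of_nonneg_left h1 hΛ.le]
        · rw [indicator_of_notMem hy]
          have : (fun x => (x, y)) ⁻¹' S = ∅ := by
            ext a
            simp only [mem_preimage, mem_empty_iff_false, iff_false]
            exact fun ha => hy ha.1.2
          simp [this]
    _ = ENNReal.ofReal (12 / (m * Λ)) := by
        rw [lintegral_indicator_const measurableSet_Icc, Real.volume_Icc,
          ← ENNReal.ofReal_mul (by positivity)]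
        congr 1; ring

lemma integral_packet_sq_le (hσ : Continuous σ) (hΛ : 0 < Λ)
    (hsep : ∀ i k, i ≠ k → 6 ≤ Λ * |c i - c k|) {R m : ℝ} (hm : 0 < m)
    (hlow : ∀ y ∈ Icc (-1 : ℝ) 1, ∀ a ∈ Icc (-R) R, ∀ b ∈ Icc (-R) R,
      m * |a - b| ≤ |σ (a, y) - σ (b, y)|) :
    ∫ x in box R, packet σ Λ c d x ^ 2 ≤ 243 / (m * Λ) * ∑ i, d i ^ 2 := by
  have hsetm : ∀ i, MeasurableSet {y | |Λ * (σ y - c i)| < 3} := fun i =>
    (isOpen_lt (by fun_prop) continuous_const).measurableSet
  have hint : ∀ i, IntegrableOn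
      ({y | |Λ * (σ y - c i)| < 3}.indicator (fun _ => 81/4 * d i ^ 2)) (box R) := fun i =>
    (integrableOn_const (isCompact_box R).measure_lt_top.ne).indicator (hsetm i)
  have hc : Continuous fun x => packet σ Λ c d x ^ 2 := by
    unfold packet
    refine (continuous_finsetSum _ fun i _ => continuous_const.mul
      ((contDiff_gProf (n := 0)).continuous.comp ?_)).pow 2
    fun_prop
  calc ∫ x in box R, packet σ Λ c d x ^ 2
      ≤ ∫ x in box R, ∑ i, {y | |Λ * (σ y - c i)| < 3}.indicator (fun _ => 81/4 * d i ^ 2) x :=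
        setIntegral_mono (hc.continuousOn.integrableOn_compact (isCompact_box R))
          (integrable_finsetSum _ fun i _ => hint i) (packet_sq_le hΛ hsep)
    _ = ∑ i, ∫ x in box R, {y | |Λ * (σ y - c i)| < 3}.indicator (fun _ => 81/4 * d i ^ 2) x :=
        integral_finsetSum _ fun i _ => hint i
    _ ≤ ∑ i, 243 / (m * Λ) * d i ^ 2 := by
        refine Finset.sum_le_sum fun i _ => ?_
        rw [setIntegral_indicator (hsetm i), setIntegral_const, smul_eq_mul]
        have hv := ENNReal.toReal_mono ENNReal.ofReal_ne_top (strip_volume_le hσ hΛ hm hlow (c i))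
        rw [ENNReal.toReal_ofReal (by positivity)] at hv
        refine (mul_le_mul_of_nonneg_right hv (by positivity)).trans (le_of_eq ?_)
        ring
    _ = 243 / (m * Λ) * ∑ i, d i ^ 2 := by rw [Finset.mul_sum]

/-- Integration by parts along `l = ∂₂ - v ∂₁` with its invariant density `ρ`. -/
lemma transport_ibp {v ρ R H : P2 → ℝ} (hv : ContDiff ℝ 1 v) (hρ : ContDiff ℝ 1 ρ)
    (hR : ContDiff ℝ 1 R) (hH : ContDiff ℝ 1 H) (hs : HasCompactSupport H)
    (hdens : ∀ x, d2 ρ x - v x * d1 ρ x = d1 v x * ρ x) :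
    ∫ x, ρ x * (H x * (d2 R x - v x * d1 R x) + R x * (d2 H x - v x * d1 H x)) = 0 := by
  set Φ : P2 → ℝ := fun x => H x * (R x * ρ x)
  set Ψ : P2 → ℝ := fun x => v x * Φ x
  have hΦ : ContDiff ℝ 1 Φ := hH.mul (hR.mul hρ)
  have hΨ : ContDiff ℝ 1 Ψ := hv.mul hΦ
  have sΦ : HasCompactSupport Φ := hs.mul_right
  have sΨ : HasCompactSupport Ψ := sΦ.mul_left
  have key : ∀ x, ρ x * (H x * (d2 R x - v x * d1 R x) + R x * (d2 H x - v x * d1 H x))
      = d2 Φ x - d1 Ψ x := by
    intro x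
    have a := hv.differentiable one_ne_zero x
    have b := hρ.differentiable one_ne_zero x
    have c' := hR.differentiable one_ne_zero x
    have e := hH.differentiable one_ne_zero x
    simp only [Ψ, Φ]
    rw [d1_mul a (e.fun_mul (c'.fun_mul b)), d1_mul e (c'.fun_mul b), d1_mul c' b,
      d2_mul e (c'.fun_mul b), d2_mul c' b]
    linear_combination (-(H x * R x)) * hdens x
  have i1 : Integrable (d2 Φ) :=
    (contDiff_d2 (n := 0) hΦ).continuous.integrable_of_hasCompactSupport (sΦ.fderiv_apply ℝ _)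
  have i2 : Integrable (d1 Ψ) :=
    (contDiff_d1 (n := 0) hΨ).continuous.integrable_of_hasCompactSupport (sΨ.fderiv_apply ℝ _)
  rw [integral_congr_ae (Filter.Eventually.of_forall key), integral_sub i1 i2,
    integral_d2_eq_zero hΦ sΦ, integral_d1_eq_zero hΨ sΨ, sub_self]

/-- Cauchy–Schwarz on a set. -/
lemma setIntegral_abs_mul_le {s : Set P2} (hs : MeasurableSet s) {f g : P2 → ℝ}
    (hf : IntegrableOn (fun x => f x ^ 2) s) (hg : IntegrableOn (fun x => g x ^ 2) s)
    (hfg : IntegrableOn (fun x => |f x| * |g x|) s) :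
    ∫ x in s, |f x| * |g x| ≤
      Real.sqrt (∫ x in s, f x ^ 2) * Real.sqrt (∫ x in s, g x ^ 2) := by
  set A := ∫ x in s, f x ^ 2
  set B := ∫ x in s, g x ^ 2
  set I := ∫ x in s, |f x| * |g x|
  have hA : 0 ≤ A := setIntegral_nonneg hs fun x _ => sq_nonneg _
  have hB : 0 ≤ B := setIntegral_nonneg hs fun x _ => sq_nonneg _
  have hI : 0 ≤ I := setIntegral_nonneg hs fun x _ => by positivity
  have hquad : ∀ t : ℝ, 0 ≤ B * (t * t) + (-2 * I) * t + A := by
    intro t
    have h0 : 0 ≤ ∫ x in s, (|f x| - t * |g x|) ^ 2 := setIntegral_nonneg hs fun x _ => sq_nonneg _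
    have e : (fun x => (|f x| - t * |g x|) ^ 2)
        = fun x => (f x ^ 2 - (2 * t) * (|f x| * |g x|)) + t ^ 2 * g x ^ 2 := by
      funext x; rw [sub_sq, mul_pow, sq_abs, sq_abs]; ring
    rw [e, integral_add (hf.fun_sub (hfg.const_mul _)) (hg.const_mul _),
      integral_sub hf (hfg.const_mul _), integral_const_mul, integral_const_mul] at h0
    linarith
  have hd := discrim_le_zero hquad
  rw [discrim] at hd
  rw [← Real.sqrt_mul hA, ← Real.sqrt_sq hI]
  exact Real.sqrt_le_sqrt (by nlinarith)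

end Vale.Agent.P229.Test
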