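import Vale.Agent.P229.Test.Bump
import Vale.Agent.P229.Test.Profiles

/-!
# P229 seat D: one bump against one packet
-/

namespace Vale.Agent.P229.Test

open MeasureTheory Set
open scoped ContDiff

lemma zoom_abs_le {Λ : ℝ} {p x : P2} (h : rsq (zoom Λ p x) ≤ 1) :
    |Λ * (x.1 - p.1)| ≤ 1 ∧ |Λ * (x.2 - p.2)| ≤ 1 := by
  simp only [rsq, zoom] at h
  constructor <;> rw [abs_le] <;> constructor <;>
    nlinarith [sq_nonneg (Λ * (x.1 - p.1)), sq_nonneg (Λ * (x.2 - p.2))]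

lemma mem_closedBall_of_zoom {Λ : ℝ} (hΛ : 0 < Λ) {p x : P2} (h : rsq (zoom Λ p x) ≤ 1) :
    x ∈ Metric.closedBall p (1 / Λ) := by
  obtain ⟨h1, h2⟩ := zoom_abs_le h
  rw [abs_mul, abs_of_pos hΛ] at h1 h2
  rw [Metric.mem_closedBall, Prod.dist_eq, Real.dist_eq, Real.dist_eq, max_le_iff]
  constructor <;> rw [le_div_iff₀ hΛ] <;> linarith

lemma norm_fderiv_le (f : P2 → ℝ) (x : P2) : ‖fderiv ℝ f x‖ ≤ |d1 f x| + |d2 f x| := by
  refine ContinuousLinearMap.opNorm_le_bound _ (by positivity) fun v => ?_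
  have e : fderiv ℝ f x v = v.1 * d1 f x + v.2 * d2 f x := by
    have : v = v.1 • ((1, 0) : P2) + v.2 • ((0, 1) : P2) := by simp
    rw [this, map_add, map_smul, map_smul]
    simp [d1, d2]
  rw [e, Real.norm_eq_abs]
  have h1 : |v.1| ≤ ‖v‖ := norm_fst_le v
  have h2 : |v.2| ≤ ‖v‖ := norm_snd_le v
  calc |v.1 * d1 f x + v.2 * d2 f x| ≤ |v.1 * d1 f x| + |v.2 * d2 f x| := abs_add_le _ _
    _ ≤ ‖v‖ * |d1 f x| + ‖v‖ * |d2 f x| := by
        rw [abs_mul, abs_mul]; gcongr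
    _ = (|d1 f x| + |d2 f x|) * ‖v‖ := by ring

/-- Mean value inequality on a ball. -/
lemma abs_sub_le_of_deriv_bound {f : P2 → ℝ} {p : P2} {r B₁ B₂ : ℝ} (hf : Differentiable ℝ f)
    (h₁ : ∀ x ∈ Metric.closedBall p r, |d1 f x| ≤ B₁)
    (h₂ : ∀ x ∈ Metric.closedBall p r, |d2 f x| ≤ B₂) {x : P2} (hx : x ∈ Metric.closedBall p r) :
    |f x - f p| ≤ (B₁ + B₂) * r := by
  have hr : 0 ≤ r := dist_nonneg.trans hx
  have hp : p ∈ Metric.closedBall p r := Metric.mem_closedBall_self hr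
  have hB : 0 ≤ B₁ + B₂ := add_nonneg ((abs_nonneg _).trans (h₁ p hp)) ((abs_nonneg _).trans (h₂ p hp))
  have := (convex_closedBall p r).norm_image_sub_le_of_norm_fderiv_le (fun y _ => hf y)
    (fun y hy => (norm_fderiv_le f y).trans (add_le_add (h₁ y hy) (h₂ y hy))) hp hx
  rw [Real.norm_eq_abs] at this
  refine this.trans (mul_le_mul_of_nonneg_left ?_ hB)
  rwa [← dist_eq_norm]

lemma sub_fderiv_linear {σ : P2 → ℝ} (hσ : Differentiable ℝ σ) (l1 l2 : ℝ) (x : P2) :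
    d1 (fun y => σ y - (l1 * y.1 + l2 * y.2)) x = d1 σ x - l1 ∧
      d2 (fun y => σ y - (l1 * y.1 + l2 * y.2)) x = d2 σ x - l2 := by
  constructor
  · rw [d1_sub (hσ x) (by fun_prop), d1_add (by fun_prop) (by fun_prop),
      d1_const_mul _ (by fun_prop), d1_const_mul _ (by fun_prop), d1_fst, d1_snd]
    ring
  · rw [d2_sub (hσ x) (by fun_prop), d2_add (by fun_prop) (by fun_prop),
      d2_const_mul _ (by fun_prop), d2_const_mul _ (by fun_prop), d2_fst, d2_snd]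
    ring

/-- The affine approximation of the label on a ball of radius `1 / Λ`. -/
lemma abs_label_taylor {σ : P2 → ℝ} (hσ : ContDiff ℝ 2 σ) {p : P2} {r S : ℝ}
    (h11 : ∀ x ∈ Metric.closedBall p r, |d1 (d1 σ) x| ≤ S)
    (h21 : ∀ x ∈ Metric.closedBall p r, |d2 (d1 σ) x| ≤ S)
    (h22 : ∀ x ∈ Metric.closedBall p r, |d2 (d2 σ) x| ≤ S) {x : P2}
    (hx : x ∈ Metric.closedBall p r) :
    |σ x - σ p - (d1 σ p * (x.1 - p.1) + d2 σ p * (x.2 - p.2))| ≤ 4 * S * r ^ 2 := by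
  have hr : 0 ≤ r := dist_nonneg.trans hx
  have hdiff : Differentiable ℝ σ := hσ.differentiable (by norm_num)
  have e1 : Differentiable ℝ (d1 σ) := (contDiff_d1 (n := 1) hσ).differentiable (by norm_num)
  have e2 : Differentiable ℝ (d2 σ) := (contDiff_d2 (n := 1) hσ).differentiable (by norm_num)
  set f : P2 → ℝ := fun y => σ y - (d1 σ p * y.1 + d2 σ p * y.2)
  have hf : Differentiable ℝ f := hdiff.sub (by fun_prop)
  have b1 : ∀ y ∈ Metric.closedBall p r, |d1 f y| ≤ 2 * S * r := by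
    intro y hy
    rw [(sub_fderiv_linear hdiff _ _ y).1]
    have := abs_sub_le_of_deriv_bound e1 h11 h21 hy
    linarith
  have b2 : ∀ y ∈ Metric.closedBall p r, |d2 f y| ≤ 2 * S * r := by
    intro y hy
    rw [(sub_fderiv_linear hdiff _ _ y).2]
    have h12 : ∀ z ∈ Metric.closedBall p r, |d1 (d2 σ) z| ≤ S := fun z hz => by
      rw [d1_d2 hσ]; exact h21 z hz
    have := abs_sub_le_of_deriv_bound e2 h12 h22 hy
    linarith
  have h := abs_sub_le_of_deriv_bound hf b1 b2 hx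
  simp only [f] at h
  have e : σ x - σ p - (d1 σ p * (x.1 - p.1) + d2 σ p * (x.2 - p.2))
      = σ x - (d1 σ p * x.1 + d2 σ p * x.2) - (σ p - (d1 σ p * p.1 + d2 σ p * p.2)) := by ring
  rw [e]; linarith

/-- One bump against one packet. -/
theorem bump_pairing {σ Φ : P2 → ℝ} (hσ : ContDiff ℝ 2 σ) (hΦ : ContDiff ℝ 1 Φ) {Λ : ℝ}
    (hΛ : 1 ≤ Λ) {p : P2} {S F : ℝ} (hS : 0 ≤ S) (hΛS : 4 * S ≤ Λ)
    (h1 : |d1 σ p| + |d2 σ p| ≤ 7/4) (hF : |Φ p| ≤ F)
    (h11 : ∀ x ∈ Metric.closedBall p (1 / Λ), |d1 (d1 σ) x| ≤ S)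
    (h21 : ∀ x ∈ Metric.closedBall p (1 / Λ), |d2 (d1 σ) x| ≤ S)
    (h22 : ∀ x ∈ Metric.closedBall p (1 / Λ), |d2 (d2 σ) x| ≤ S)
    (hΦ1 : ∀ x ∈ Metric.closedBall p (1 / Λ), |d1 Φ x| ≤ F)
    (hΦ2 : ∀ x ∈ Metric.closedBall p (1 / Λ), |d2 Φ x| ≤ F) :
    (Φ p * (d1 σ p ^ 2 + d2 σ p ^ 2) * (∫ z, bump z)
        - F * (32 * S + 16) / Λ * ∫ z, |lap bump z|) / Λ ^ 2 ≤
      ∫ x, lap bump (zoom Λ p x) * (Φ x * gProf (Λ * (σ x - σ p))) := by
  have hΛ0 : 0 < Λ := by linarith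
  set back : P2 → P2 := fun z => (p.1 + z.1 / Λ, p.2 + z.2 / Λ)
  set Ψ : P2 → ℝ := fun z => Φ (back z) * gProf (Λ * (σ (back z) - σ p))
  have hback : Continuous back := by fun_prop
  have hΨ : Continuous Ψ := (hΦ.continuous.comp hback).mul
    ((contDiff_gProf (n := 0)).continuous.comp
      (continuous_const.mul ((hσ.continuous.comp hback).sub continuous_const)))
  have hzb : ∀ x, back (zoom Λ p x) = x := fun x => by
    simp only [back, zoom]; ext <;> field_simp <;> ring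
  have e : (fun x => lap bump (zoom Λ p x) * (Φ x * gProf (Λ * (σ x - σ p))))
      = fun x => (fun z => lap bump z * Ψ z) (zoom Λ p x) := by
    funext x; simp only [Ψ, hzb]
  rw [e, integral_zoom hΛ0 p (fun z => lap bump z * Ψ z), div_eq_inv_mul]
  refine mul_le_mul_of_nonneg_left (le_integral_lap_bump (l1 := d1 σ p) (l2 := d2 σ p) hΨ ?_)
    (by positivity)
  intro z hz
  set x := back z
  have hzx : zoom Λ p x = z := by
    simp only [x, back, zoom]; ext <;> field_simp <;> ring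
  have hx : x ∈ Metric.closedBall p (1 / Λ) := mem_closedBall_of_zoom hΛ0 (by rw [hzx]; exact hz)
  have hz1 : |z.1| ≤ 1 ∧ |z.2| ≤ 1 := by
    have h := zoom_abs_le (p := p) (Λ := Λ) (x := x) (by rw [hzx]; exact hz)
    have e1 : Λ * (x.1 - p.1) = z.1 := congrArg Prod.fst hzx
    have e2 : Λ * (x.2 - p.2) = z.2 := congrArg Prod.snd hzx
    rwa [e1, e2] at h
  set L := d1 σ p * z.1 + d2 σ p * z.2
  have hL : |L| ≤ 7/4 := by
    refine (abs_add_le _ _).trans ?_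
    rw [abs_mul, abs_mul]
    nlinarith [abs_nonneg (d1 σ p), abs_nonneg (d2 σ p), hz1.1, hz1.2]
  set u := Λ * (σ x - σ p)
  have hu : |u - L| ≤ 4 * S / Λ := by
    have h := abs_label_taylor hσ h11 h21 h22 hx
    have eu : u - L = Λ * (σ x - σ p - (d1 σ p * (x.1 - p.1) + d2 σ p * (x.2 - p.2))) := by
      simp only [u, L, x, back]; field_simp; ring
    rw [eu, abs_mul, abs_of_pos hΛ0]
    refine (mul_le_mul_of_nonneg_left h hΛ0.le).trans (le_of_eq ?_)
    field_simp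
  have hsmall : 4 * S / Λ ≤ 1 := by rw [div_le_one hΛ0]; exact hΛS
  -- the profile is a square near the centre of the packet
  have hg : |gProf u - L ^ 2 / 2| ≤ 8 * (4 * S / Λ) ∧ |gProf u| ≤ 9/2 := by
    refine ⟨?_, abs_gProf_le u⟩
    have hu1 : |u| ≤ 7/4 + 1 := by
      have := abs_sub_abs_le_abs_sub u L; linarith
    rcases le_or_gt |u| 2 with h2 | h2
    · rw [gProf_of_abs_le h2]
      have e3 : u ^ 2 / 2 - L ^ 2 / 2 = (u - L) * (u + L) / 2 := by ring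
      rw [e3, abs_div, abs_mul, abs_two]
      have h4 : |u + L| ≤ 4 := (abs_add_le u L).trans (by linarith)
      have h12 : 0 ≤ 4 * S / Λ := by positivity
      nlinarith [abs_nonneg (u - L), abs_nonneg (u + L)]
    · -- then `4 S / Λ ≥ 1/4`, so the crude bound suffices
      have h5 : 1/4 ≤ 4 * S / Λ := by
        have := abs_sub_abs_le_abs_sub u L; linarith
      have h6 : gProf u ≤ u ^ 2 / 2 := by
        unfold gProf
        exact mul_le_of_le_one_right (by positivity) (Real.smoothTransition.le_one _)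
      have h7 : 0 ≤ gProf u := mul_nonneg (by positivity) (Real.smoothTransition.nonneg _)
      have h8 : L ^ 2 ≤ (7/4 : ℝ) ^ 2 := by rw [← sq_abs L]; gcongr
      have h9 : u ^ 2 ≤ (7/4 + 4 * S / Λ) ^ 2 := by
        rw [← sq_abs u]; gcongr
        have := abs_sub_abs_le_abs_sub u L; linarith
      have h12 : 0 ≤ 4 * S / Λ := by positivity
      rw [abs_le]; constructor <;> nlinarith
  have hΦx : |Φ x - Φ p| ≤ (F + F) * (1 / Λ) :=
    abs_sub_le_of_deriv_bound (hΦ.differentiable one_ne_zero) hΦ1 hΦ2 hx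
  show |Φ x * gProf u - Φ p * (L ^ 2 / 2)| ≤ F * (32 * S + 16) / Λ
  have e4 : Φ x * gProf u - Φ p * (L ^ 2 / 2)
      = (Φ x - Φ p) * gProf u + Φ p * (gProf u - L ^ 2 / 2) := by ring
  rw [e4]
  refine (abs_add_le _ _).trans ?_
  rw [abs_mul, abs_mul]
  have hF0 : 0 ≤ F := (abs_nonneg _).trans hF
  have m1 := mul_le_mul hΦx hg.2 (abs_nonneg _) (mul_nonneg (by linarith) (by positivity))
  have m2 := mul_le_mul hF hg.1 (abs_nonneg _) hF0
  have e5 : (F + F) * (1 / Λ) * (9/2) + F * (8 * (4 * S / Λ)) = F * (32 * S + 9) / Λ := by ring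
  have m3 : F * (32 * S + 9) / Λ ≤ F * (32 * S + 16) / Λ := by
    gcongr <;> linarith
  linarith

end Vale.Agent.P229.Test
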