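import Vale.Agent.P229.Calc

/-!
# P229 seat D: Poincaré inequality on a square
-/

namespace Vale.Agent.P229.Test

open MeasureTheory intervalIntegral Set
open scoped ContDiff

lemma sq_integral_le {f : ℝ → ℝ} (hf : Continuous f) {a h : ℝ} (hh : 0 < h) :
    (∫ t in a..(a + h), |f t|) ^ 2 ≤ h * ∫ t in a..(a + h), f t ^ 2 := by
  set A := ∫ t in a..(a + h), |f t| with hA
  have h0 : 0 ≤ ∫ t in a..(a + h), (|f t| - A / h) ^ 2 :=
    intervalIntegral.integral_nonneg (by linarith) fun t _ => sq_nonneg _
  have e : (fun t => (|f t| - A / h) ^ 2)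
      = fun t => f t ^ 2 - (2 * (A / h)) * |f t| + (A / h) ^ 2 := by
    funext t; rw [sub_sq, sq_abs]; ring
  have i1 : IntervalIntegrable (fun t => f t ^ 2) volume a (a + h) :=
    (hf.pow 2).intervalIntegrable _ _
  have i2 : IntervalIntegrable (fun t => (2 * (A / h)) * |f t|) volume a (a + h) :=
    (continuous_const.mul hf.abs).intervalIntegrable _ _
  rw [e, intervalIntegral.integral_add (i1.sub i2) intervalIntegrable_const,
    intervalIntegral.integral_sub i1 i2, intervalIntegral.integral_const_mul,
    intervalIntegral.integral_const, smul_eq_mul, ← hA, add_sub_cancel_left] at h0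
  have key : h * ((∫ t in a..(a + h), f t ^ 2) - 2 * (A / h) * A + h * (A / h) ^ 2)
      = h * (∫ t in a..(a + h), f t ^ 2) - A ^ 2 := by field_simp; ring
  have := mul_nonneg hh.le h0
  rw [key] at this
  linarith

/-- One variable, in terms of the total variation. -/
lemma abs_mul_sub_integral_le {f : ℝ → ℝ} (hf : Continuous f) {a h V : ℝ} (hh : 0 < h)
    (hV : ∀ t ∈ Icc a (a + h), ∀ u ∈ Icc a (a + h), |f t - f u| ≤ V) {t : ℝ}
    (ht : t ∈ Icc a (a + h)) : |h * f t - ∫ u in a..(a + h), f u| ≤ h * V := by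
  have e : h * f t - ∫ u in a..(a + h), f u = ∫ u in a..(a + h), (f t - f u) := by
    rw [intervalIntegral.integral_sub intervalIntegrable_const (hf.intervalIntegrable _ _),
      intervalIntegral.integral_const, smul_eq_mul, add_sub_cancel_left]
  rw [e, ← Real.norm_eq_abs]
  refine (intervalIntegral.norm_integral_le_of_norm_le_const (C := V) fun u hu => ?_).trans ?_
  · rw [uIoc_of_le (by linarith)] at hu
    rw [Real.norm_eq_abs]
    exact hV t ht u ⟨hu.1.le, hu.2⟩
  · rw [add_sub_cancel_left, abs_of_pos hh]; linarith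

lemma abs_sub_le_integral {f f' : ℝ → ℝ} (hf : ∀ t, HasDerivAt f (f' t) t) (hf' : Continuous f')
    {a h : ℝ} (hh : 0 < h) :
    ∀ t ∈ Icc a (a + h), ∀ u ∈ Icc a (a + h), |f t - f u| ≤ ∫ s in a..(a + h), |f' s| := by
  have key : ∀ t ∈ Icc a (a + h), ∀ u ∈ Icc a (a + h), u ≤ t →
      |f t - f u| ≤ ∫ s in a..(a + h), |f' s| := by
    intro t ht u hu hut
    rw [← intervalIntegral.integral_eq_sub_of_hasDerivAt (fun s _ => hf s)
      (hf'.intervalIntegrable u t)]
    refine (intervalIntegral.abs_integral_le_integral_abs hut).trans ?_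
    exact intervalIntegral.integral_mono_interval hu.1 hut ht.2
      (Filter.Eventually.of_forall fun s => abs_nonneg (f' s)) (hf'.abs.intervalIntegrable _ _)
  intro t ht u hu
  rcases le_total u t with h' | h'
  · exact key t ht u hu h'
  · rw [abs_sub_comm]; exact key u hu t ht h'

/-- One variable Poincaré. -/
lemma poincare_line {f f' : ℝ → ℝ} (hf : ∀ t, HasDerivAt f (f' t) t) (hf' : Continuous f')
    {a h : ℝ} (hh : 0 < h) :
    ∫ t in a..(a + h), f t ^ 2 ≤
      2 * h ^ 2 * (∫ t in a..(a + h), f' t ^ 2) + 2 / h * (∫ t in a..(a + h), f t) ^ 2 := by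
  have hc : Continuous f := continuous_iff_continuousAt.2 fun t => (hf t).continuousAt
  set I := ∫ u in a..(a + h), f u
  set V := ∫ s in a..(a + h), |f' s|
  have hV2 := sq_integral_le hf' (a := a) hh
  have hb : ∀ t ∈ Icc a (a + h), f t ^ 2 ≤ 2 * (I / h) ^ 2 + 2 * V ^ 2 := by
    intro t ht
    have := abs_mul_sub_integral_le hc hh (abs_sub_le_integral hf hf' hh) ht
    have h1 : |f t - I / h| ≤ V := by
      have e : h * (f t - I / h) = h * f t - I := by field_simp
      rw [← e, abs_mul, abs_of_pos hh] at this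
      exact le_of_mul_le_mul_left this hh
    have h2 : (f t - I / h) ^ 2 ≤ V ^ 2 := by
      rw [← sq_abs (f t - I / h)]; gcongr
    nlinarith [sq_nonneg (f t - 2 * (I / h))]
  have hm := intervalIntegral.integral_mono_on (μ := volume) (by linarith : a ≤ a + h)
    ((hc.pow 2).intervalIntegrable a (a + h)) intervalIntegrable_const hb
  rw [intervalIntegral.integral_const, smul_eq_mul, add_sub_cancel_left] at hm
  have e2 : h * (2 * (I / h) ^ 2 + 2 * V ^ 2) = 2 / h * I ^ 2 + 2 * h * V ^ 2 := by field_simp
  rw [e2] at hm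
  simp only [Pi.pow_apply] at hm
  nlinarith [mul_le_mul_of_nonneg_left hV2 (by linarith : (0:ℝ) ≤ 2 * h)]

lemma hasDerivAt_slice_fst {w : P2 → ℝ} (hw : ContDiff ℝ 1 w) (y t : ℝ) :
    HasDerivAt (fun s => w (s, y)) (d1 w (t, y)) t :=
  ((hw.differentiable one_ne_zero) (t, y)).hasFDerivAt.comp_hasDerivAt t
    ((hasDerivAt_id t).prodMk (hasDerivAt_const t y))

lemma hasDerivAt_slice_snd {w : P2 → ℝ} (hw : ContDiff ℝ 1 w) (x t : ℝ) :
    HasDerivAt (fun s => w (x, s)) (d2 w (x, t)) t :=
  ((hw.differentiable one_ne_zero) (x, t)).hasFDerivAt.comp_hasDerivAt t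
    ((hasDerivAt_const t x).prodMk (hasDerivAt_id t))

lemma setIntegral_square {F : P2 → ℝ} (hF : Continuous F) {a c h : ℝ} (hh : 0 < h) :
    ∫ x in Icc a (a + h) ×ˢ Icc c (c + h), F x
      = ∫ y in c..(c + h), ∫ t in a..(a + h), F (t, y) := by
  have hi : IntegrableOn F (Icc a (a + h) ×ˢ Icc c (c + h)) (volume.prod volume) := by
    rw [← Measure.volume_eq_prod]
    exact hF.continuousOn.integrableOn_compact (isCompact_Icc.prod isCompact_Icc)
  rw [Measure.volume_eq_prod, ← setIntegral_prod_swap,
    setIntegral_prod (fun z : ℝ × ℝ => F z.swap) hi.swap,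
    intervalIntegral.integral_of_le (by linarith), integral_Icc_eq_integral_Ioc]
  refine setIntegral_congr_fun measurableSet_Ioc fun y _ => ?_
  rw [intervalIntegral.integral_of_le (by linarith), integral_Icc_eq_integral_Ioc]
  rfl

/-- Poincaré on a square. -/
theorem poincare_square {w : P2 → ℝ} (hw : ContDiff ℝ 1 w) {a c h : ℝ} (hh : 0 < h) :
    ∫ x in Icc a (a + h) ×ˢ Icc c (c + h), w x ^ 2 ≤
      4 * h ^ 2 * (∫ x in Icc a (a + h) ×ˢ Icc c (c + h), (d1 w x ^ 2 + d2 w x ^ 2))
        + 4 / h ^ 2 * (∫ x in Icc a (a + h) ×ˢ Icc c (c + h), w x) ^ 2 := by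
  have hc := hw.continuous
  have h1c : Continuous (d1 w) := (contDiff_d1 (n := 0) hw).continuous
  have h2c : Continuous (d2 w) := (contDiff_d2 (n := 0) hw).continuous
  rw [setIntegral_square (F := fun x => w x ^ 2) (hc.pow 2) hh,
    setIntegral_square (F := fun x => d1 w x ^ 2 + d2 w x ^ 2) ((h1c.pow 2).add (h2c.pow 2)) hh,
    setIntegral_square hc hh]
  have par : ∀ {G : P2 → ℝ}, Continuous G →
      Continuous fun y => ∫ t in a..(a + h), G (t, y) := fun {G} hG =>
    intervalIntegral.continuous_parametric_intervalIntegral_of_continuous'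
      (by fun_prop) _ _
  set m : ℝ → ℝ := fun y => ∫ t in a..(a + h), w (t, y)
  set p : ℝ → ℝ := fun y => ∫ t in a..(a + h), d1 w (t, y) ^ 2
  set q : ℝ → ℝ := fun y => ∫ t in a..(a + h), d2 w (t, y) ^ 2
  set r : ℝ → ℝ := fun y => ∫ t in a..(a + h), |d2 w (t, y)|
  have cm : Continuous m := par hc
  have cp : Continuous p := par (h1c.pow 2)
  have cq : Continuous q := par (h2c.pow 2)
  have cr : Continuous r := par h2c.abs
  set W2 := ∫ y in c..(c + h), r y
  set I := ∫ y in c..(c + h), m y
  have hdiff : ∀ y ∈ Icc c (c + h), ∀ y' ∈ Icc c (c + h), |m y - m y'| ≤ W2 := by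
    have key : ∀ y ∈ Icc c (c + h), ∀ y' ∈ Icc c (c + h), y' ≤ y → |m y - m y'| ≤ W2 := by
      intro y hy y' hy' hle
      have i1 : IntervalIntegrable (fun t => w (t, y)) volume a (a + h) :=
        Continuous.intervalIntegrable (by fun_prop) _ _
      have i2 : IntervalIntegrable (fun t => w (t, y')) volume a (a + h) :=
        Continuous.intervalIntegrable (by fun_prop) _ _
      calc |m y - m y'| = |∫ t in a..(a + h), (w (t, y) - w (t, y'))| := by
            rw [intervalIntegral.integral_sub i1 i2]
        _ ≤ ∫ t in a..(a + h), |w (t, y) - w (t, y')| :=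
            intervalIntegral.abs_integral_le_integral_abs (by linarith)
        _ ≤ ∫ t in a..(a + h), ∫ s in c..(c + h), |d2 w (t, s)| := by
            refine intervalIntegral.integral_mono_on (by linarith)
              (Continuous.intervalIntegrable (by fun_prop) _ _) ?_ fun t _ => ?_
            · exact (intervalIntegral.continuous_parametric_intervalIntegral_of_continuous'
                (by fun_prop) _ _).intervalIntegrable _ _
            · exact abs_sub_le_integral (hasDerivAt_slice_snd hw t) (by fun_prop) hh y hy y' hy'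
        _ = W2 := by
            refine (MeasureTheory.intervalIntegral_intervalIntegral_swap ?_)
            have hcont : Continuous (Function.uncurry fun t s => |d2 w (t, s)|) := h2c.abs
            exact (hcont.continuousOn.integrableOn_compact
              ((isCompact_uIcc (a := a) (b := a + h)).prod (isCompact_uIcc (a := c) (b := c + h)))
              ).mono_set (Set.prod_mono uIoc_subset_uIcc uIoc_subset_uIcc)
    intro y hy y' hy'
    rcases le_total y' y with h' | h'
    · exact key y hy y' hy' h'
    · rw [abs_sub_comm]; exact key y' hy' y hy h'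
  have hr2 : ∀ y, r y ^ 2 ≤ h * q y := fun y =>
    sq_integral_le (f := fun t => d2 w (t, y)) (by fun_prop) hh
  have hW2 : W2 ^ 2 ≤ h ^ 2 * ∫ y in c..(c + h), q y := by
    have h3 := sq_integral_le cr (a := c) hh
    have h4 : ∫ y in c..(c + h), |r y| = W2 := intervalIntegral.integral_congr fun y _ =>
      abs_of_nonneg (intervalIntegral.integral_nonneg (by linarith) fun t _ => abs_nonneg _)
    have h5 : ∫ y in c..(c + h), r y ^ 2 ≤ ∫ y in c..(c + h), h * q y :=
      intervalIntegral.integral_mono_on (by linarith) ((cr.pow 2).intervalIntegrable _ _)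
        ((continuous_const.mul cq).intervalIntegrable _ _) fun y _ => hr2 y
    rw [h4] at h3
    rw [intervalIntegral.integral_const_mul] at h5
    nlinarith [mul_le_mul_of_nonneg_left h5 hh.le]
  have hm : ∀ y ∈ Icc c (c + h), ∫ t in a..(a + h), w (t, y) ^ 2 ≤
      2 * h ^ 2 * p y + 2 / h * (2 * (I / h) ^ 2 + 2 * W2 ^ 2) := by
    intro y hy
    have h6 := poincare_line (f := fun t => w (t, y)) (f' := fun t => d1 w (t, y))
      (hasDerivAt_slice_fst hw y) (by fun_prop) (a := a) hh
    have h7 := abs_mul_sub_integral_le cm hh hdiff hy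
    have h8 : |m y - I / h| ≤ W2 := by
      have e : h * (m y - I / h) = h * m y - I := by field_simp
      rw [← e, abs_mul, abs_of_pos hh] at h7
      exact le_of_mul_le_mul_left h7 hh
    have h9 : (m y - I / h) ^ 2 ≤ W2 ^ 2 := by rw [← sq_abs (m y - I / h)]; gcongr
    have h10 : m y ^ 2 ≤ 2 * (I / h) ^ 2 + 2 * W2 ^ 2 := by
      nlinarith [sq_nonneg (m y - 2 * (I / h))]
    have h11 := mul_le_mul_of_nonneg_left h10 (show (0:ℝ) ≤ 2 / h by positivity)
    linarith
  have i3 : IntervalIntegrable (fun y => ∫ t in a..(a + h), w (t, y) ^ 2) volume c (c + h) :=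
    (par (G := fun x => w x ^ 2) (hc.pow 2)).intervalIntegrable _ _
  have h12 := intervalIntegral.integral_mono_on (by linarith) i3
    (((continuous_const.mul cp).add continuous_const).intervalIntegrable _ _) hm
  simp only [Pi.add_apply, Pi.mul_apply] at h12
  rw [intervalIntegral.integral_add (Continuous.intervalIntegrable (by fun_prop) _ _)
    intervalIntegrable_const, intervalIntegral.integral_const_mul,
    intervalIntegral.integral_const, smul_eq_mul, add_sub_cancel_left] at h12
  have hpq : ∫ y in c..(c + h), ∫ t in a..(a + h), (d1 w (t, y) ^ 2 + d2 w (t, y) ^ 2)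
      = (∫ y in c..(c + h), p y) + ∫ y in c..(c + h), q y := by
    rw [← intervalIntegral.integral_add (cp.intervalIntegrable _ _) (cq.intervalIntegrable _ _)]
    refine intervalIntegral.integral_congr fun y _ => ?_
    exact intervalIntegral.integral_add (Continuous.intervalIntegrable (by fun_prop) _ _)
      (Continuous.intervalIntegrable (by fun_prop) _ _)
  have hp0 : 0 ≤ ∫ y in c..(c + h), p y := intervalIntegral.integral_nonneg (by linarith)
    fun y _ => intervalIntegral.integral_nonneg (by linarith) fun t _ => sq_nonneg _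
  rw [hpq]
  have e3 : h * (2 / h * (2 * (I / h) ^ 2 + 2 * W2 ^ 2)) = 4 / h ^ 2 * I ^ 2 + 4 * W2 ^ 2 := by
    field_simp; ring
  rw [e3] at h12
  nlinarith

end Vale.Agent.P229.Test
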