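import Vale.Agent.P229.Test.TestFn
import Vale.Agent.P229.Test.Forcing
import Vale.Agent.P229.Test.Grid
import Vale.Agent.P229.Test.Pairing

/-!
# P229 seat D: the standing hypotheses, supports
-/

namespace Vale.Agent.P229.Test

open MeasureTheory Set
open scoped ContDiff

/-- All hypotheses on one pocket, one row and one label bound. -/
structure Setup {n : ℕ} (P : Coef) (T τ elo e K σ CA Λ slope : ℝ) (t d : Fin n → ℝ) : Prop where
  hT : 0 < T
  helo : 0 < elo
  hle : elo ≤ e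
  he8 : e ≤ 1/100000000
  heT : Real.sqrt e ≤ 1 / (300 * (1 + T))
  hτ : τ ≤ 1/10000
  hτT : τ ≤ 1 / (300 * (1 + T))
  hg : P.Good e τ K σ
  speed : ∃ B L, Speed (vel P e) B L ∧ B ≤ τ + 2 * Real.sqrt e
  amp : AmpOK P e CA
  hCA : 1 ≤ CA
  hK : 1 ≤ K
  hΛ : 1 ≤ Λ
  hΛe : 200 * (1 + T) / Real.sqrt elo ≤ Λ
  hslope : |slope| ≤ T
  ht : ∀ i, |t i| ≤ Real.sqrt elo / (50 * (1 + T))
  hsep : ∀ i k, i ≠ k → 16 * (1 + T) / Λ ≤ |t i - t k|
  hd : ∀ i, d i = -1 ∨ d i = 0 ∨ d i = 1

/-- The packet centres. -/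
noncomputable def centre {n : ℕ} (P : Coef) (e slope : ℝ) (t : Fin n → ℝ) (i : Fin n) : ℝ :=
  lab P e (rowPt slope t i)

variable {n : ℕ} {P : Coef} {T τ elo e K σ CA Λ slope : ℝ} {t d : Fin n → ℝ}

namespace Setup

variable (S : Setup P T τ elo e K σ CA Λ slope t d)

include S

lemma he : 0 < e := S.helo.trans_le S.hle

lemma tau_nonneg : 0 ≤ τ := (abs_nonneg _).trans (S.hg.b0 0)

lemma hΛ0 : 0 < Λ := by linarith [S.hΛ]

lemma sqrt_le : Real.sqrt elo ≤ Real.sqrt e := Real.sqrt_le_sqrt S.hle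

lemma sqrt_small : Real.sqrt e ≤ 1/10000 := Real.sqrt_le_iff.2 ⟨by norm_num, by linarith [S.he8]⟩

lemma inv_le : (1 + T) / Λ ≤ Real.sqrt elo / 200 := by
  have h0 : 0 < Real.sqrt elo := Real.sqrt_pos.2 S.helo
  have h := S.hΛe
  rw [div_le_iff₀ h0] at h
  rw [div_le_iff₀ S.hΛ0]
  linarith

lemma one_inv_le : 1 / Λ ≤ Real.sqrt elo / 200 :=
  le_trans (div_le_div_of_nonneg_right (by linarith [S.hT]) S.hΛ0.le) S.inv_le

lemma speed_bound (x : P2) :
    |vel P e x| ≤ 1 / (100 * (1 + T)) ∧ |vel P e x| ≤ τ + 2 * Real.sqrt e := by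
  obtain ⟨B, L, hV, hB⟩ := S.speed
  have h := (hV.bound x).trans hB
  refine ⟨h.trans ?_, h⟩
  have e1 : (1 : ℝ) / (100 * (1 + T)) = 1 / (300 * (1 + T)) + 2 * (1 / (300 * (1 + T))) := by
    field_simp; norm_num
  rw [e1]; linarith [S.heT, S.hτT]

lemma abs_lab_sub (x : P2) : |lab P e x - x.1| ≤ (τ + 2 * Real.sqrt e) * |x.2| := by
  obtain ⟨B, L, hV, hB⟩ := S.speed
  exact (hV.abs_label_sub x).trans (mul_le_mul_of_nonneg_right hB (abs_nonneg _))

lemma mul_speed_le : (τ + 2 * Real.sqrt e) * (1 + T) ≤ 1/100 := by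
  have h1 := S.hτT
  have h2 := S.heT
  have hp : 0 < 300 * (1 + T) := by linarith [S.hT]
  rw [le_div_iff₀ hp] at h1 h2
  linarith

lemma abs_centre_le (i : Fin n) : |centre P e slope t i| ≤ Real.sqrt elo / 40 := by
  have h1 : |lab P e (rowPt slope t i) - t i| ≤ (τ + 2 * Real.sqrt e) * |slope * t i| :=
    S.abs_lab_sub _
  rw [abs_mul] at h1
  have h2 : (τ + 2 * Real.sqrt e) * (|slope| * |t i|) ≤ 1/100 * |t i| := by
    rw [← mul_assoc]
    refine mul_le_mul_of_nonneg_right ?_ (abs_nonneg _)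
    refine le_trans (mul_le_mul_of_nonneg_left (S.hslope.trans (by linarith : T ≤ 1 + T)) ?_)
      S.mul_speed_le
    linarith [S.tau_nonneg, Real.sqrt_nonneg e]
  have h3 : |t i| ≤ Real.sqrt elo / 50 := (S.ht i).trans
    (div_le_div_of_nonneg_left (Real.sqrt_nonneg _) (by norm_num) (by linarith [S.hT]))
  have h4 := abs_sub_abs_le_abs_sub (lab P e (rowPt slope t i)) (t i)
  show |lab P e (rowPt slope t i)| ≤ _
  linarith [Real.sqrt_nonneg elo]

/-- Support of every term of the identity. -/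
lemma support {x : P2} (hG : packet (lab P e) Λ (centre P e slope t) d x ≠ 0)
    (hs : |label P.b x / Real.sqrt e| < 16/25) :
    x ∈ bandBox ∧ |x.2| ≤ 1 ∧ rsq x < 9/10 ∧ c0 P e x ^ 2 = P.a x := by
  obtain ⟨i, -, hi⟩ := exists_of_packet_ne_zero hG
  have hr : 0 < Real.sqrt e := Real.sqrt_pos.2 S.he
  have hl : |lab P e x| ≤ Real.sqrt e / 20 := by
    rw [abs_mul, abs_of_pos S.hΛ0] at hi
    have h1 : |lab P e x - centre P e slope t i| ≤ 3 / Λ := by
      rw [le_div_iff₀ S.hΛ0]; linarith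
    have h2 := abs_sub_abs_le_abs_sub (lab P e x) (centre P e slope t i)
    have h3 : 3 / Λ ≤ 3 * (Real.sqrt elo / 200) := by
      rw [show 3 / Λ = 3 * (1 / Λ) by ring]; linarith [S.one_inv_le]
    linarith [S.abs_centre_le i, S.sqrt_le, Real.sqrt_nonneg elo]
  rw [abs_div, abs_of_pos hr, div_lt_iff₀ hr] at hs
  obtain ⟨hy, hx, hrs, -, -, hc⟩ := band_exit S.he S.he8 S.hτ S.hg hl hs
  have hy' : |x.2| ≤ 1 := by linarith
  refine ⟨⟨?_, ?_⟩, hy', hrs, hc⟩
  · have : |x.1| ≤ 1/50 := by linarith [S.sqrt_small, S.hτ]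
    exact ⟨(abs_le.1 this).1, (abs_le.1 this).2⟩
  · exact ⟨by linarith [(abs_le.1 hy).1], by linarith [(abs_le.1 hy).2]⟩

lemma chi_support {x : P2} (h : chiB P e x ≠ 0) : |label P.b x / Real.sqrt e| < 16/25 := by
  by_contra h'
  exact h (chiS_eq_zero (not_lt.1 h'))

lemma lchi_support {x : P2} (h : lOp P e (chiB P e) x ≠ 0) :
    14/25 ≤ |label P.b x / Real.sqrt e| ∧ |label P.b x / Real.sqrt e| < 16/25 := by
  rw [lOp_chiB S.hg] at h
  have h' := left_ne_zero_of_mul h
  constructor <;> by_contra hc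
  · exact h' (deriv_chiS_eq_zero (not_le.1 hc))
  · exact h' (deriv_chiS_eq_zero' (not_lt.1 hc))

lemma testH_support {x : P2} (h : testH P e Λ (centre P e slope t) d x ≠ 0) :
    x ∈ bandBox ∧ |x.2| ≤ 1 ∧ rsq x < 9/10 ∧ c0 P e x ^ 2 = P.a x :=
  S.support (left_ne_zero_of_mul (right_ne_zero_of_mul h)) (S.chi_support (left_ne_zero_of_mul h))

lemma hasCompactSupport_testH :
    HasCompactSupport (testH P e Λ (centre P e slope t) d) :=
  HasCompactSupport.intro isCompact_bandBox fun _ hx => by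
    by_contra h
    exact hx (S.testH_support h).1

lemma band_cond (x : P2) (h : testH P e Λ (centre P e slope t) d x ≠ 0) :
    x ∈ Dsk (3/2) ∧ c0 P e x ^ 2 = P.a x := by
  obtain ⟨-, -, hr, hc⟩ := S.testH_support h
  exact ⟨show rsq x ≤ 3/2 by linarith, hc⟩

lemma lab_mono {y : ℝ} (hy : |y| ≤ 1) (a b : ℝ) :
    9/10 * |a - b| ≤ |lab P e (a, y) - lab P e (b, y)| := by
  have hd : ∀ s, HasDerivAt (fun u => lab P e (u, y)) (d1 (lab P e) (s, y)) s :=
    fun s => hasDerivAt_slice_fst (S.amp.labC2.of_le (by norm_num)) y s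
  have key : ∀ a b : ℝ, b ≤ a → 9/10 * (a - b) ≤ lab P e (a, y) - lab P e (b, y) := fun a b hab =>
    mul_sub_le_image_sub_of_le_deriv (f := fun u => lab P e (u, y)) (fun s => (hd s).differentiableAt)
      (fun s => by rw [(hd s).deriv]; exact (S.amp.rho_mem (s, y) hy).1) hab
  rcases le_total b a with h | h
  · rw [abs_of_nonneg (by linarith : 0 ≤ a - b)]
    exact (key a b h).trans (le_abs_self _)
  · rw [abs_of_nonpos (by linarith : a - b ≤ 0), abs_sub_comm (lab P e (a, y))]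
    have := key b a h
    exact le_trans (by linarith) (le_abs_self _)

/-- Centres are separated. -/
lemma centre_sep (i k : Fin n) (h : i ≠ k) :
    6 ≤ Λ * |centre P e slope t i - centre P e slope t k| := by
  have hy : |slope * t k| ≤ 1 := by
    rw [abs_mul]
    refine le_trans (mul_le_mul S.hslope (S.ht k) (abs_nonneg _) S.hT.le) ?_
    rw [← mul_div_assoc, div_le_one (by linarith [S.hT])]
    nlinarith [S.sqrt_small, S.sqrt_le, Real.sqrt_nonneg elo, S.hT]
  -- compare the two centres through the point `(t i, slope * t k)`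
  have h1 := S.lab_mono hy (t i) (t k)
  have h2 : |lab P e (t i, slope * t i) - lab P e (t i, slope * t k)|
      ≤ 1/50 * |t i - t k| := by
    have hd : ∀ s, HasDerivAt (fun u => lab P e (t i, u)) (d2 (lab P e) (t i, s)) s :=
      fun s => hasDerivAt_slice_snd (S.amp.labC2.of_le (by norm_num)) (t i) s
    have hy' : ∀ s ∈ uIcc (slope * t k) (slope * t i), |s| ≤ 1 := by
      intro s hs
      have hyi : |slope * t i| ≤ 1 := by
        rw [abs_mul]
        refine le_trans (mul_le_mul S.hslope (S.ht i) (abs_nonneg _) S.hT.le) ?_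
        rw [← mul_div_assoc, div_le_one (by linarith [S.hT])]
        nlinarith [S.sqrt_small, S.sqrt_le, Real.sqrt_nonneg elo, S.hT]
      rcases mem_uIcc.1 hs with ⟨p, q⟩ | ⟨p, q⟩ <;> rw [abs_le] <;>
        constructor <;> linarith [(abs_le.1 hy).1, (abs_le.1 hy).2, (abs_le.1 hyi).1, (abs_le.1 hyi).2]
    have hb : ∀ s ∈ uIcc (slope * t k) (slope * t i),
        ‖deriv (fun u => lab P e (t i, u)) s‖ ≤ 2 / (100 * (1 + T)) := by
      intro s hs
      have e1 := S.amp.lab_eqn (t i, s)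
      rw [lOp, sub_eq_zero] at e1
      rw [(hd s).deriv, Real.norm_eq_abs, e1, abs_mul]
      have hρ := S.amp.rho_mem (t i, s) (hy' s hs)
      calc |vel P e (t i, s)| * |d1 (lab P e) (t i, s)| ≤ 1 / (100 * (1 + T)) * 2 :=
            mul_le_mul (S.speed_bound _).1 (by rw [abs_of_pos (by linarith [hρ.1])]; linarith [hρ.2])
              (abs_nonneg _) (by have := S.hT; positivity)
        _ = 2 / (100 * (1 + T)) := by ring
    have h3 := (convex_uIcc (slope * t k) (slope * t i)).norm_image_sub_le_of_norm_deriv_le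
      (fun s _ => (hd s).differentiableAt) hb left_mem_uIcc right_mem_uIcc
    rw [Real.norm_eq_abs, Real.norm_eq_abs, ← mul_sub, abs_mul] at h3
    refine h3.trans ?_
    calc 2 / (100 * (1 + T)) * (|slope| * |t i - t k|) ≤ 2 / (100 * (1 + T)) * ((1 + T) * |t i - t k|) := by
          have := S.hT
          gcongr; linarith [S.hslope]
      _ = 1/50 * |t i - t k| := by have := S.hT; field_simp; ring
  have h5 := S.hsep i k h
  rw [div_le_iff₀ S.hΛ0] at h5
  have h6 : 88/100 * |t i - t k| ≤ |centre P e slope t i - centre P e slope t k| := by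
    have h7 := abs_sub_abs_le_abs_sub (lab P e (t i, slope * t k) - lab P e (t k, slope * t k))
      (lab P e (t i, slope * t k) - lab P e (t i, slope * t i))
    have e2 : lab P e (t i, slope * t k) - lab P e (t k, slope * t k)
        - (lab P e (t i, slope * t k) - lab P e (t i, slope * t i))
        = centre P e slope t i - centre P e slope t k := by simp only [centre, rowPt]; ring
    rw [e2, abs_sub_comm (lab P e (t i, slope * t k)) (lab P e (t i, slope * t i))] at h7
    linarith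
  have := mul_le_mul_of_nonneg_left h6 S.hΛ0.le
  nlinarith [S.hT]

/-- On a ball of radius `1 / Λ` around a row point. -/
lemma ball_facts (i : Fin n) {x : P2} (hx : x ∈ Metric.closedBall (rowPt slope t i) (1 / Λ)) :
    |x.2| ≤ 1 ∧ x ∈ Dsk (3/2) ∧ |x.1| ≤ Real.sqrt elo / 20 ∧
      |x.2 - slope * x.1| ≤ (1 + T) / Λ ∧ chiB P e x = 1 := by
  rw [Metric.mem_closedBall, Prod.dist_eq, max_le_iff, Real.dist_eq, Real.dist_eq] at hx
  obtain ⟨a, b⟩ := hx
  simp only [rowPt] at a b
  have hti := S.ht i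
  have hT := S.hT
  have hti' : |t i| ≤ Real.sqrt elo / 50 := hti.trans
    (div_le_div_of_nonneg_left (Real.sqrt_nonneg _) (by norm_num) (by linarith))
  have hsl : |slope * t i| ≤ Real.sqrt elo / 50 := by
    rw [abs_mul]
    refine le_trans (mul_le_mul S.hslope hti (abs_nonneg _) hT.le) ?_
    rw [← mul_div_assoc, div_le_div_iff₀ (by linarith) (by norm_num)]
    nlinarith [Real.sqrt_nonneg elo]
  have h1 := S.one_inv_le
  have hs := S.sqrt_le
  have hsm := S.sqrt_small
  have hs0 := Real.sqrt_nonneg elo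
  have x1 : |x.1| ≤ Real.sqrt elo / 20 := by linarith [abs_sub_abs_le_abs_sub x.1 (t i)]
  have x2 : |x.2| ≤ Real.sqrt elo / 20 := by linarith [abs_sub_abs_le_abs_sub x.2 (slope * t i)]
  have hy : |x.2| ≤ 1 := by linarith
  have hD : x ∈ Dsk (3/2) := by
    show rsq x ≤ 3/2
    unfold rsq
    nlinarith [sq_abs x.1, sq_abs x.2, abs_nonneg x.1, abs_nonneg x.2]
  refine ⟨hy, hD, x1, ?_, ?_⟩
  · have e1 : x.2 - slope * x.1 = (x.2 - slope * t i) - slope * (x.1 - t i) := by ring
    rw [e1]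
    refine (abs_sub _ _).trans ?_
    rw [abs_mul, show (1 + T) / Λ = 1 / Λ + T * (1 / Λ) by ring]
    exact add_le_add b (mul_le_mul S.hslope a (abs_nonneg _) hT.le)
  · apply chiS_eq_one
    have hr : 0 < Real.sqrt e := Real.sqrt_pos.2 S.he
    rw [abs_div, abs_of_pos hr, div_le_iff₀ hr]
    have h2 := (labelOK_of_good S.hg (by linarith [S.hτ])).s0 x hD
    have h3 := abs_sub_abs_le_abs_sub (label P.b x) x.1
    nlinarith [S.hτ, abs_nonneg x.2, S.tau_nonneg]

/-- Inside the ball the packet is one profile. -/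
lemma ball_packet (i : Fin n) {x : P2} (hx : x ∈ Metric.closedBall (rowPt slope t i) (1 / Λ)) :
    |Λ * (lab P e x - centre P e slope t i)| < 3 := by
  have hρ : ∀ y ∈ Metric.closedBall (rowPt slope t i) (1 / Λ),
      |d1 (lab P e) y| ≤ 11/10 ∧ |d2 (lab P e) y| ≤ 11/10 := by
    intro y hy
    obtain ⟨hy1, -⟩ := S.ball_facts i hy
    have h := S.amp.rho_mem y hy1
    have e1 := S.amp.lab_eqn y
    rw [lOp, sub_eq_zero] at e1
    refine ⟨by rw [abs_of_pos (by linarith [h.1])]; linarith [h.2], ?_⟩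
    rw [e1, abs_mul, abs_of_pos (by linarith [h.1] : 0 < d1 (lab P e) y)]
    have h1 : |vel P e y| ≤ 1 := (S.speed_bound y).2.trans (by linarith [S.hτ, S.sqrt_small])
    calc |vel P e y| * d1 (lab P e) y ≤ 1 * (11/10) :=
          mul_le_mul h1 h.2 (by linarith [h.1]) zero_le_one
      _ = 11/10 := one_mul _
  have h := abs_sub_le_of_deriv_bound (S.amp.labC2.differentiable (by norm_num))
    (fun y hy => (hρ y hy).1) (fun y hy => (hρ y hy).2) hx
  rw [abs_mul, abs_of_pos S.hΛ0]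
  have h' := mul_le_mul_of_nonneg_left h S.hΛ0.le
  have e2 : Λ * ((11/10 + 11/10) * (1 / Λ)) = 11/5 := by have := S.hΛ0; field_simp; ring
  simp only [centre]
  linarith

end Setup

end Vale.Agent.P229.Test
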