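import Vale.Agent.P229.Test.Amp
import Vale.Agent.P229.Test.Packet

/-!
# P229 seat D: the test function and the exact pairing identity
-/

namespace Vale.Agent.P229.Test

open MeasureTheory Set
open scoped ContDiff

variable {n : ℕ}

/-- The cut-off in the transported label. -/
noncomputable def chiB (P : Coef) (e : ℝ) (x : P2) : ℝ := chiS (label P.b x / Real.sqrt e)

/-- The test function without its density. -/
noncomputable def testH (P : Coef) (e Λ : ℝ) (c d : Fin n → ℝ) (x : P2) : ℝ :=
  chiB P e x * (packet (lab P e) Λ c d x * amp P e x)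

/-- The bounded factor of the zeroth order error. -/
noncomputable def qTerm (P : Coef) (e : ℝ) (x : P2) : ℝ :=
  lOp P e (alphaM P e) x * chiB P e x * amp P e x
    + alphaM P e x * lOp P e (chiB P e) x * amp P e x
    - alphaM P e x * chiB P e x * alphaP P e x * amp P e x

variable {P : Coef} {e τ K σ C Λ : ℝ} {c d : Fin n → ℝ}

lemma deriv_chiS_eq_zero' {t : ℝ} (h : 16/25 ≤ |t|) : deriv chiS t = 0 :=
  IsLocalMin.deriv_eq_zero (Filter.Eventually.of_forall fun u => by
    rw [chiS_eq_zero h]; exact (chiS_mem u).1)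

lemma contDiff_packet (hA : AmpOK P e C) : ContDiff ℝ 1 (packet (lab P e) Λ c d) := by
  unfold packet
  exact ContDiff.sum fun i _ => contDiff_const.mul ((contDiff_gProf (n := 1)).comp
    (contDiff_const.mul ((hA.labC2.of_le (by norm_num)).sub contDiff_const)))

lemma lOp_packet (hA : AmpOK P e C) (x : P2) : lOp P e (packet (lab P e) Λ c d) x = 0 := by
  have hφ : Differentiable ℝ fun s : ℝ => ∑ i, d i * gProf (Λ * (s - c i)) := by
    have : Differentiable ℝ gProf := (contDiff_gProf (n := 1)).differentiable (by simp)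
    fun_prop
  have hl : DifferentiableAt ℝ (lab P e) x := hA.labC2.differentiable (by norm_num) x
  have := lOp_comp (P := P) (e := e) (φ := fun s : ℝ => ∑ i, d i * gProf (Λ * (s - c i)))
    (hφ _) hl
  rw [hA.lab_eqn, mul_zero] at this
  exact this

lemma contDiff_chiB (hg : P.Good e τ K σ) : ContDiff ℝ 1 (chiB P e) := by
  unfold chiB
  exact (contDiff_chiS (n := 1)).comp
    ((((speed_of_good hg).contDiff_label (n := 2) (contDiff_two_of_good hg)).of_le
      (by norm_num)).div_const _)

lemma lOp_chiB (hg : P.Good e τ K σ) (x : P2) :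
    lOp P e (chiB P e) x = deriv chiS (label P.b x / Real.sqrt e)
      * (-(c0 P e x * d1 (label P.b) x) / Real.sqrt e) := by
  have hS : DifferentiableAt ℝ (label P.b) x :=
    (((speed_of_good hg).contDiff_label (n := 2) (contDiff_two_of_good hg))).differentiable
      (by norm_num) x
  have hS' : DifferentiableAt ℝ (fun y => label P.b y / Real.sqrt e) x := by fun_prop
  unfold chiB
  rw [lOp_comp ((contDiff_chiS (n := 1)).differentiable (by norm_num) _) hS']
  congr 1
  have e1 : (fun y => label P.b y / Real.sqrt e) = fun y => (Real.sqrt e)⁻¹ * label P.b y := by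
    funext y; ring
  rw [e1, lOp, d1_const_mul _ hS, d2_const_mul _ hS, (speed_of_good hg).d2_label x, vel]
  ring

lemma contDiff_testH (hg : P.Good e τ K σ) (hA : AmpOK P e C) :
    ContDiff ℝ 1 (testH P e Λ c d) :=
  (contDiff_chiB hg).mul ((contDiff_packet hA).mul hA.ampC1)

/-- `l H = l χ · G A - α⁺ H`. -/
lemma lOp_testH (hg : P.Good e τ K σ) (hA : AmpOK P e C) (x : P2) :
    lOp P e (testH P e Λ c d) x
      = lOp P e (chiB P e) x * (packet (lab P e) Λ c d x * amp P e x)
        - alphaP P e x * testH P e Λ c d x := by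
  have a := (contDiff_chiB hg (e := e)).differentiable one_ne_zero x
  have b := (contDiff_packet (Λ := Λ) (c := c) (d := d) hA).differentiable one_ne_zero x
  have k := hA.ampC1.differentiable one_ne_zero x
  unfold testH
  rw [lOp_mul a (b.fun_mul k), lOp_mul b k, lOp_packet hA, hA.amp_eqn]
  ring

/-- The exact identity behind the obstruction. -/
theorem test_identity (hg : P.Good e τ K σ) (he : 0 < e) (hA : AmpOK P e C)
    (hs : HasCompactSupport (testH P e Λ c d))
    (hband : ∀ x, testH P e Λ c d x ≠ 0 → x ∈ Dsk (3/2) ∧ c0 P e x ^ 2 = P.a x)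
    {w f : P2 → ℝ} (hw : ContDiff ℝ 3 w) (hop : ∀ x ∈ Dsk (3/2), P.op w x = f x)
    (hf : Continuous f) :
    ∫ x, d1 (lab P e) x * (testH P e Λ c d x * f x) =
      (∫ x, d1 (lab P e) x * (w x * (packet (lab P e) Λ c d x * qTerm P e x)))
        - ∫ x, d1 (lab P e) x * (Rplus P e w x
          * (packet (lab P e) Λ c d x * (lOp P e (chiB P e) x * amp P e x))) := by
  set H := testH P e Λ c d
  set G := packet (lab P e) Λ c d
  set ρ := d1 (lab P e)
  have hb1 : ContDiff ℝ 1 P.b := hg.hb.of_le (by norm_cast)
  have ha1 : ContDiff ℝ 1 P.a := hg.ha.of_le (by norm_cast)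
  have hw2 : ContDiff ℝ 2 w := hw.of_le (by norm_num)
  have hH : ContDiff ℝ 1 H := contDiff_testH hg hA
  have hv : ContDiff ℝ 1 (vel P e) := hA.velC2.of_le (by norm_num)
  have hρ : ContDiff ℝ 1 ρ := contDiff_d1 (n := 1) hA.labC2
  have hR : ContDiff ℝ 1 (Rplus P e w) := by
    exact ((contDiff_d2 (n := 1) hw2).sub (hb1.mul (contDiff_d1 (n := 1) hw2))).add
      ((contDiff_c0 (n := 1) (e := e) ha1).mul (contDiff_d1 (n := 1) hw2))
  have i1 := transport_ibp hv hρ hR hH hs hA.dens_eqn
  have hMH : ContDiff ℝ 1 (fun x => alphaM P e x * H x) := hA.aMC1.mul hH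
  have i2 := transport_ibp hv hρ (hw.of_le (by norm_num)) hMH hs.mul_left hA.dens_eqn
  set T0 := fun x => ρ x * (H x * f x)
  set T1 := fun x => ρ x * (w x * (G x * qTerm P e x))
  set T2 := fun x => ρ x * (Rplus P e w x * (G x * (lOp P e (chiB P e) x * amp P e x)))
  set T3 := fun x => ρ x * (alphaM P e x * H x * lOp P e w x)
  have key1 : ∀ x, ρ x * (H x * (d2 (Rplus P e w) x - vel P e x * d1 (Rplus P e w) x)
      + Rplus P e w x * (d2 H x - vel P e x * d1 H x)) = T0 x + T3 x + T2 x := by
    intro x
    show ρ x * (H x * lOp P e (Rplus P e w) x + Rplus P e w x * lOp P e H x) = _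
    rw [lOp_testH hg hA x]
    by_cases h0 : H x = 0
    · simp only [T0, T2, T3]
      rw [show testH P e Λ c d x = 0 from h0, h0]
      ring
    · obtain ⟨hD, hc⟩ := hband x h0
      rw [lOp_Rplus hb1 ha1 he hw2 hc, hop x hD]
      simp only [T0, T2, T3]
      ring
  have key2 : ∀ x, ρ x * (alphaM P e x * H x * (d2 w x - vel P e x * d1 w x)
      + w x * (d2 (fun y => alphaM P e y * H y) x - vel P e x * d1 (fun y => alphaM P e y * H y) x))
      = T3 x + T1 x := by
    intro x
    show ρ x * (alphaM P e x * H x * lOp P e w x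
      + w x * lOp P e (fun y => alphaM P e y * H y) x) = _
    rw [lOp_mul (hA.aMC1.differentiable one_ne_zero x) (hH.differentiable one_ne_zero x),
      lOp_testH hg hA x]
    simp only [T1, T3, qTerm, H, testH, G]
    ring
  have cρ := hρ.continuous
  have cH := hH.continuous
  have cG : Continuous G := (contDiff_packet hA).continuous
  have cA := hA.ampC1.continuous
  have cM := hA.aMC1.continuous
  have cl : ∀ {F : P2 → ℝ}, ContDiff ℝ 1 F → Continuous (lOp P e F) := fun {F} hF =>
    (contDiff_d2 (n := 0) hF).continuous.sub (hv.continuous.mul (contDiff_d1 (n := 0) hF).continuous)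
  have s0 : HasCompactSupport T0 := hs.mul_right.mul_left
  have s3 : HasCompactSupport T3 := hs.mul_left.mul_right.mul_left
  have c0' : Continuous T0 := cρ.mul (cH.mul hf)
  have c3 : Continuous T3 := cρ.mul ((cM.mul cH).mul (cl (hw.of_le (by norm_num))))
  have I0 : Integrable T0 := c0'.integrable_of_hasCompactSupport s0
  have I3 : Integrable T3 := c3.integrable_of_hasCompactSupport s3
  have cdR : Continuous fun x => ρ x * (H x * (d2 (Rplus P e w) x - vel P e x * d1 (Rplus P e w) x)
      + Rplus P e w x * (d2 H x - vel P e x * d1 H x)) :=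
    cρ.mul ((cH.mul (cl hR)).add (hR.continuous.mul (cl hH)))
  have sl : HasCompactSupport (fun x => d2 H x - vel P e x * d1 H x) :=
    (hs.fderiv_apply ℝ _).sub ((hs.fderiv_apply ℝ _).mul_left)
  have IA := cdR.integrable_of_hasCompactSupport (μ := volume) ((hs.mul_right.add sl.mul_left).mul_left)
  have cdW : Continuous fun x => ρ x * (alphaM P e x * H x * (d2 w x - vel P e x * d1 w x)
      + w x * (d2 (fun y => alphaM P e y * H y) x
        - vel P e x * d1 (fun y => alphaM P e y * H y) x)) :=
    cρ.mul (((cM.mul cH).mul (cl (hw.of_le (by norm_num)))).add (hw.continuous.mul (cl hMH)))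
  have sl2 : HasCompactSupport (fun x => d2 (fun y => alphaM P e y * H y) x
      - vel P e x * d1 (fun y => alphaM P e y * H y) x) :=
    (hs.mul_left.fderiv_apply ℝ _).sub ((hs.mul_left.fderiv_apply ℝ _).mul_left)
  have IB := cdW.integrable_of_hasCompactSupport (μ := volume)
    ((hs.mul_left.mul_right.add sl2.mul_left).mul_left)
  have I03 : Integrable fun x => T0 x + T3 x := I0.add I3
  have I2 : Integrable T2 := by
    refine (Integrable.sub IA I03).congr (Filter.Eventually.of_forall fun x => ?_)
    simp only [Pi.sub_apply]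
    linarith [key1 x]
  have I1 : Integrable T1 := by
    refine (Integrable.sub IB I3).congr (Filter.Eventually.of_forall fun x => ?_)
    simp only [Pi.sub_apply]
    linarith [key2 x]
  rw [integral_congr_ae (Filter.Eventually.of_forall key1), integral_add I03 I2,
    integral_add I0 I3] at i1
  rw [integral_congr_ae (Filter.Eventually.of_forall key2), integral_add I3 I1] at i2
  show ∫ x, T0 x = (∫ x, T1 x) - ∫ x, T2 x
  linarith

end Vale.Agent.P229.Test
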